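import Claimed.Agent.R103.Defs

/-!
# Row 103: the edges used an odd number of times by a closed walk form an even edge set

`walk_parity`: induction on the walk.  For `cons (h : G.Adj a a') p` the new edge `s(a,a')` adds 1 to `∑ w, count s(x,w)` iff `x = a` or `x = a'`
 (`a ≠ a'`; `s(x,w) = s(a,a')` iff `(x,w) = (a,a')` or `(x,w) = (a',a)`; `List.count_cons`, `Finset.sum_add_distrib`, `Finset.sum_ite_eq`).
`oddSet_even`: for a closed walk, `zdeg (oddSet p) x = #{w | Odd (count s(x,w))}`, and `(#{w | Odd (f w)} : ZMod 2) = ∑ w, (f w : ZMod 2)`; the latter is `1 + 1 = 0` or `0`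
 by `walk_parity`; conclude with `ZMod.natCast_eq_zero_iff_even` (name may differ: `ZMod.natCast_self_eq_zero`, `ZMod.eq_zero_iff_even`).
`oddSet_subset`: `SimpleGraph.Walk.edges_subset_edgeSet`.
-/

set_option autoImplicit false

namespace Claimed.Agent.R103

universe u
variable {V : Type u} [Fintype V] [DecidableEq V]

theorem walk_parity_aux {a a' : V} (h : a ≠ a') (x : V) :
    (∑ w, if s(a, a') = s(x, w) then 1 else 0 : ℕ) =
      (if x = a then 1 else 0) + (if x = a' then 1 else 0) := by
  by_cases h1 : x = a
  · subst h1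
    have e : ∀ w, (s(x, a') = s(x, w)) ↔ a' = w := by
      intro w
      rw [Sym2.eq_iff]
      constructor
      · rintro (⟨-, h2⟩ | ⟨-, h2⟩)
        · exact h2
        · exact absurd h2.symm h
      · intro h2
        exact Or.inl ⟨rfl, h2⟩
    simp only [e, Finset.sum_ite_eq, Finset.mem_univ, if_true, if_neg h]
  · by_cases h2 : x = a'
    · subst h2
      have e : ∀ w, (s(a, x) = s(x, w)) ↔ a = w := by
        intro w
        rw [Sym2.eq_iff]
        constructor
        · rintro (⟨h3, -⟩ | ⟨h3, -⟩)
          · exact absurd h3 h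
          · exact h3
        · intro h3
          exact Or.inr ⟨h3, rfl⟩
      simp only [e, Finset.sum_ite_eq, Finset.mem_univ, if_true, if_neg h1]
    · have e : ∀ w, ¬ (s(a, a') = s(x, w)) := by
        intro w
        rw [Sym2.eq_iff]
        rintro (⟨h3, -⟩ | ⟨-, h3⟩)
        · exact h1 h3.symm
        · exact h2 h3.symm
      simp only [e, if_false, Finset.sum_const_zero, if_neg h1, if_neg h2, add_zero]

theorem walk_parity (G : SimpleGraph V) {a b : V} (p : G.Walk a b) (x : V) :
    ((∑ w, p.edges.count s(x, w) : ℕ) : ZMod 2) = (if x = a then 1 else 0) + (if x = b then 1 else 0) := by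
  induction p with
  | nil =>
    simp only [SimpleGraph.Walk.edges_nil, List.count_nil, Finset.sum_const_zero, Nat.cast_zero]
    exact (CharTwo.add_self_eq_zero _).symm
  | @cons a a' b h p ih =>
    have e : (∑ w, (SimpleGraph.Walk.cons h p).edges.count s(x, w) : ℕ) =
        (∑ w, p.edges.count s(x, w)) + ((if x = a then 1 else 0) + (if x = a' then 1 else 0)) := by
      rw [← walk_parity_aux h.ne x, ← Finset.sum_add_distrib]
      refine Finset.sum_congr rfl fun w _ => ?_
      rw [SimpleGraph.Walk.edges_cons, List.count_cons]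
      simp only [beq_iff_eq]
    rw [e, Nat.cast_add, ih]
    push_cast
    have h2 : ∀ t : ZMod 2, t + t = 0 := CharTwo.add_self_eq_zero
    linear_combination h2 (if x = a' then 1 else 0)

/-- the edges used an odd number of times -/
def oddSet {G : SimpleGraph V} {a b : V} (p : G.Walk a b) : Finset (Sym2 V) :=
  p.edges.toFinset.filter (fun e => Odd (p.edges.count e))

theorem oddSet_even {G : SimpleGraph V} {a : V} (p : G.Walk a a) : EvenSet (oddSet p) := by
  intro v
  rw [← ZMod.natCast_eq_zero_iff_even]
  have hmem : ∀ w, s(v, w) ∈ oddSet p ↔ Odd (p.edges.count s(v, w)) := by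
    intro w
    unfold oddSet
    rw [Finset.mem_filter, List.mem_toFinset]
    constructor
    · exact fun h => h.2
    · intro h
      exact ⟨List.count_pos_iff.1 h.pos, h⟩
  have h1 : (zdeg (oddSet p) v : ZMod 2) = ((∑ w, p.edges.count s(v, w) : ℕ) : ZMod 2) := by
    unfold zdeg
    rw [Finset.card_filter]
    push_cast
    refine Finset.sum_congr rfl fun w _ => ?_
    by_cases h : Odd (p.edges.count s(v, w))
    · rw [if_pos ((hmem w).2 h), ZMod.natCast_eq_one_iff_odd.2 h]
    · rw [if_neg (fun h' => h ((hmem w).1 h')),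
        ZMod.natCast_eq_zero_iff_even.2 (Nat.not_odd_iff_even.1 h)]
  rw [h1, walk_parity]
  exact CharTwo.add_self_eq_zero _

theorem oddSet_subset {G : SimpleGraph V} [DecidableRel G.Adj] {a b : V} (p : G.Walk a b) :
    oddSet p ⊆ G.edgeFinset := by
  intro e he
  unfold oddSet at he
  rw [Finset.mem_filter, List.mem_toFinset] at he
  exact SimpleGraph.mem_edgeFinset.2 (p.edges_subset_edgeSet he.1)

end Claimed.Agent.R103
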