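import Claimed.Agent.R103.Defs

/-!
# Row 103: handshake lemma

`sum_sym2_ends`: induction on `z` (`Finset.induction_on`).  Inserting `e = s(a,b)`, `a ≠ b`, `e ∉ z`, raises `zdeg` by one exactly at `a` and at `b`:
 `{w | s(v,w) ∈ insert s(a,b) z} = {w | s(v,w) ∈ z} ∪ {w | s(v,w) = s(a,b)}` (disjoint), and the last set is `{b}` if `v = a`, `{a}` if `v = b`, empty otherwise.
 So `∑ v, zdeg (insert e z) v • φ v = ∑ v, zdeg z v • φ v + φ a + φ b` (`Finset.sum_add_distrib`, `Finset.sum_ite_eq`).
-/

set_option autoImplicit false

namespace Claimed.Agent.R103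

universe u
variable {V : Type u}

theorem liftB_card_eq [Fintype V] [DecidableEq V] {a b : V} (hab : a ≠ b) (v : V) :
    (Finset.univ.filter (fun w => s(v, w) = s(a, b))).card
      = (if v = a then 1 else 0) + (if v = b then 1 else 0) := by
  by_cases hva : v = a
  · subst hva
    have : Finset.univ.filter (fun w => s(v, w) = s(v, b)) = {b} := by
      ext w
      simp [hab]
    rw [this, if_pos rfl, if_neg hab, Finset.card_singleton]
  · by_cases hvb : v = b
    · subst hvb
      have : Finset.univ.filter (fun w => s(v, w) = s(a, v)) = {a} := by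
        ext w
        simp [hva]
      rw [this, if_neg hva, if_pos rfl, Finset.card_singleton]
    · have : Finset.univ.filter (fun w => s(v, w) = s(a, b)) = ∅ := by
        ext w
        simp only [Finset.mem_filter, Finset.mem_univ, true_and, Finset.notMem_empty, iff_false,
          Sym2.eq_iff]
        rintro (⟨h, -⟩ | ⟨h, -⟩)
        · exact hva h
        · exact hvb h
      rw [this, if_neg hva, if_neg hvb, Finset.card_empty]

theorem liftB_zdeg_insert [Fintype V] [DecidableEq V] {a b : V} (hab : a ≠ b)
    {z : Finset (Sym2 V)} (he : s(a, b) ∉ z) (v : V) :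
    zdeg (insert s(a, b) z) v
      = zdeg z v + ((if v = a then 1 else 0) + (if v = b then 1 else 0)) := by
  unfold zdeg
  rw [← liftB_card_eq hab v, add_comm, ← Finset.card_union_of_disjoint]
  · congr 1
    ext w
    simp only [Finset.mem_filter, Finset.mem_univ, true_and, Finset.mem_insert, Finset.mem_union]
  · rw [Finset.disjoint_filter]
    intro w _ h1 h2
    exact he (h1 ▸ h2)

/-- handshake lemma -/
theorem sum_sym2_ends [Fintype V] [DecidableEq V] {A : Type*} [AddCommMonoid A] (φ : V → A)
    (z : Finset (Sym2 V)) (hz : ∀ e ∈ z, ¬ e.IsDiag) :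
    ∑ e ∈ z, Sym2.lift ⟨fun v w => φ v + φ w, fun _ _ => add_comm _ _⟩ e = ∑ v, zdeg z v • φ v := by
  induction z using Finset.induction_on with
  | empty => simp [zdeg]
  | insert e z he ih =>
    rw [Finset.sum_insert he, ih fun e' he' => hz e' (Finset.mem_insert_of_mem he')]
    have hd : ¬ e.IsDiag := hz e (Finset.mem_insert_self e z)
    induction e using Sym2.ind with
    | _ a b =>
      have hab : a ≠ b := by simpa using hd
      simp only [liftB_zdeg_insert hab he, add_smul, Finset.sum_add_distrib, ite_smul, one_smul,
        zero_smul, Finset.sum_ite_eq', Finset.mem_univ, if_true, Sym2.lift_mk]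
      rw [add_comm]

end Claimed.Agent.R103
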