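import Claimed.Agent.R103.LiftA
import Claimed.Agent.R103.LiftB

/-!
# Row 103: lifting an even edge set of `G` to an even chain of the grid

`lift_chain`: choose `Q e` by `edge_chain'` for `e ∈ G.edgeSet` (`Classical.choose`, `0` otherwise); c := ∑ e ∈ z, Q e.
 bd c g = ∑ e ∈ z, lift(pt (b v) g + pt (b w) g) e   (`bd_sum`)   = ∑ v, zdeg z v • pt (b v) g   (`sum_sym2_ends`, edges of `G` are not diagonal)   = 0
 because every `zdeg z v` is even and `(2 * k) • x = 0` in `ZMod 2`.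
 Support: if `c e' ≠ 0` some `Q e e' ≠ 0` (`Finset.sum_apply`, `Finset.exists_ne_zero_of_sum_ne_zero`).
 c (pe f) = ∑ e ∈ z, (if e = f then 1 else 0) for `f ∈ G.edgeFinset`, which is `1` iff `f ∈ z`.
-/

set_option autoImplicit false

namespace Claimed.Agent.R103

universe u
variable {V : Type u} {G : SimpleGraph V}

theorem GM.lift_chain [Fintype V] [DecidableEq V] [DecidableRel G.Adj] (X : GM G)
    (z : Finset (Sym2 V)) (hz : z ⊆ G.edgeFinset) (hev : EvenSet z) :
    ∃ c : GE → ZMod 2, (∀ g, bd c g = 0) ∧ (∀ e, c e ≠ 0 → X.wall e) ∧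
      ∀ e ∈ G.edgeFinset, (c (X.pe e) = 1 ↔ e ∈ z) := by
  classical
  have hQ : ∀ e : Sym2 V, ∃ q : GE → ZMod 2, e ∈ G.edgeSet →
      (∀ g, bd q g =
        Sym2.lift ⟨fun v w => pt (X.b v) g + pt (X.b w) g, fun _ _ => add_comm _ _⟩ e) ∧
      (∀ e', q e' ≠ 0 → X.wall e') ∧
      q (X.pe e) = 1 ∧ ∀ f ∈ G.edgeSet, f ≠ e → q (X.pe f) = 0 := by
    intro e
    by_cases he : e ∈ G.edgeSet
    · obtain ⟨q, hq⟩ := X.edge_chain' e he
      exact ⟨q, fun _ => hq⟩
    · exact ⟨0, fun h => absurd h he⟩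
  choose Q hQ using hQ
  have hzE : ∀ e ∈ z, e ∈ G.edgeSet := fun e he => SimpleGraph.mem_edgeFinset.mp (hz he)
  refine ⟨∑ e ∈ z, Q e, ?_, ?_, ?_⟩
  · intro g
    rw [bd_sum, Finset.sum_congr rfl (fun e he => (hQ e (hzE e he)).1 g),
      sum_sym2_ends (fun v => pt (X.b v) g) z
        (fun e he => G.not_isDiag_of_mem_edgeSet (hzE e he))]
    apply Finset.sum_eq_zero
    intro v _
    obtain ⟨k, hk⟩ := hev v
    rw [hk, add_nsmul, CharTwo.add_self_eq_zero]
  · intro e' he'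
    rw [Finset.sum_apply] at he'
    obtain ⟨e, he, hne⟩ := Finset.exists_ne_zero_of_sum_ne_zero he'
    exact (hQ e (hzE e he)).2.1 e' hne
  · intro f hf
    have hfE := SimpleGraph.mem_edgeFinset.mp hf
    rw [Finset.sum_apply]
    have key : ∀ e ∈ z, Q e (X.pe f) = if e = f then 1 else 0 := by
      intro e he
      split_ifs with h
      · subst h; exact (hQ e (hzE e he)).2.2.1
      · exact (hQ e (hzE e he)).2.2.2 f hfE (Ne.symm h)
    rw [Finset.sum_congr rfl key, Finset.sum_ite_eq']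
    split_ifs with h <;> simp [h]

end Claimed.Agent.R103
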