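import Claimed.Agent.R103.GridPot
import Claimed.Agent.R103.LiftC

/-!
# Row 103: faces of a grid minor model

Cells `c, c'` are adjacent in `X.cellG` if they are the two sides of a grid edge that is not a wall.  Faces = connected components.
`faceSet φ` = the edges `e` of `G` whose private grid edge has exactly one side in `φ`.

`wall_bound`: both ends of a wall lie in territories (`X.join` for a private edge), so `|e.2.1| ≤ M`, `|e.2.2| ≤ M` (`geSrc e = (e.2.1, e.2.2)`, `X.bound`).
`cmp_eq_of_not_wall`: the two sides are adjacent cells (`geA_ne_geB`), `SimpleGraph.ConnectedComponent.sound`/`.eq`, `SimpleGraph.Adj.reachable`.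
`ind_const`: if `c e = ind (geA e) + ind (geB e)` and `c` vanishes off the walls then `ind` is constant on components
  (adjacent cells: `0 = ind a + ind b`, so `ind a = ind b` in `ZMod 2`; `SimpleGraph.ConnectedComponent.eq` gives `Reachable`, then induction on a walk).
`gen_ind`: `lift_chain` + `exists_ind` (support bound from `wall_bound`) + `ind_const`.
`sides_ne`: take an even `z ∋ e`; `gen_ind` gives `ind` with `ind (geA (pe e)) + ind (geB (pe e)) = 1`; equal components would give `x + x = 0 ≠ 1`.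
-/

set_option autoImplicit false

namespace Claimed.Agent.R103

universe u
variable {V : Type u} {G : SimpleGraph V}

theorem geA_ne_geB (e : GE) : geA e ≠ geB e := by
  obtain ⟨b, x, y⟩ := e
  intro h
  cases b with
  | true =>
    have h2 := congrArg Prod.snd h
    simp [geA, geB] at h2
  | false =>
    have h1 := congrArg Prod.fst h
    simp [geA, geB] at h1

/-- adjacency of unit cells across grid edges that are not walls -/
def GM.cellG (X : GM G) : SimpleGraph GV where
  Adj c c' := c ≠ c' ∧ ∃ e : GE, ¬ X.wall e ∧ ((geA e = c ∧ geB e = c') ∨ (geA e = c' ∧ geB e = c))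
  symm := ⟨by
    rintro c c' ⟨hne, e, he, h⟩
    exact ⟨hne.symm, e, he, h.symm⟩⟩
  loopless := ⟨fun c h => h.1 rfl⟩

/-- the face (component) of a cell -/
def GM.cmp (X : GM G) (c : GV) : X.cellG.ConnectedComponent := X.cellG.connectedComponentMk c

theorem GM.wall_bound (X : GM G) (e : GE) (he : X.wall e) : |e.2.1| ≤ X.M ∧ |e.2.2| ≤ X.M := by
  rcases he with ⟨v, h1, _⟩ | ⟨v, w, hvw, rfl⟩
  · exact X.bound v _ h1
  · obtain ⟨p, hp, q, hq, hj⟩ := X.join v w hvw
    rcases hj with ⟨h1, _⟩ | ⟨h1, _⟩
    · have := X.bound v p hp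
      rw [← h1] at this
      exact this
    · have := X.bound w q hq
      rw [← h1] at this
      exact this

theorem GM.cmp_eq_of_not_wall (X : GM G) (e : GE) (he : ¬ X.wall e) : X.cmp (geA e) = X.cmp (geB e) := by
  have hadj : X.cellG.Adj (geA e) (geB e) := ⟨geA_ne_geB e, e, he, Or.inl ⟨rfl, rfl⟩⟩
  exact SimpleGraph.ConnectedComponent.sound hadj.reachable

theorem GM.ind_const (X : GM G) (c : GE → ZMod 2) (ind : GV → ZMod 2)
    (hc : ∀ e, c e = ind (geA e) + ind (geB e)) (hw : ∀ e, c e ≠ 0 → X.wall e)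
    (a b : GV) (hab : X.cmp a = X.cmp b) : ind a = ind b := by
  have hstep : ∀ p q : GV, X.cellG.Adj p q → ind p = ind q := by
    rintro p q ⟨_, e, he, h⟩
    have h0 : c e = 0 := by
      by_contra hne
      exact he (hw e hne)
    rw [hc e] at h0
    have key : ∀ x y : ZMod 2, x + y = 0 → x = y := by decide
    rcases h with ⟨h1, h2⟩ | ⟨h1, h2⟩
    · rw [h1, h2] at h0
      exact key _ _ h0
    · rw [h1, h2] at h0
      exact (key _ _ h0).symm
  have hr : X.cellG.Reachable a b := SimpleGraph.ConnectedComponent.exact hab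
  obtain ⟨p⟩ := hr
  clear hab
  induction p with
  | nil => rfl
  | cons h _ ih => exact (hstep _ _ h).trans ih

section fin
variable [Fintype V] [DecidableEq V] [DecidableRel G.Adj]

open Classical in
/-- the edges of `G` on the boundary of the face `φ` -/
noncomputable def GM.faceSet (X : GM G) (φ : X.cellG.ConnectedComponent) : Finset (Sym2 V) :=
  G.edgeFinset.filter (fun e => ¬ (X.cmp (geA (X.pe e)) = φ ↔ X.cmp (geB (X.pe e)) = φ))

theorem GM.gen_ind (X : GM G) (z : Finset (Sym2 V)) (hz : z ⊆ G.edgeFinset) (hev : EvenSet z) :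
    ∃ ind : GV → ZMod 2, (∀ a b, X.cmp a = X.cmp b → ind a = ind b) ∧
      ∀ e ∈ G.edgeFinset, (ind (geA (X.pe e)) + ind (geB (X.pe e)) = 1 ↔ e ∈ z) := by
  obtain ⟨c, hbd, hw, hz'⟩ := X.lift_chain z hz hev
  obtain ⟨ind, hind⟩ := exists_ind X.M c (fun e he => X.wall_bound e (hw e he)) hbd
  refine ⟨ind, fun a b hab => X.ind_const c ind hind hw a b hab, fun e he => ?_⟩
  rw [← hind]
  exact hz' e he

theorem GM.sides_ne (X : GM G)
    (hb : ∀ e ∈ G.edgeFinset, ∃ z, z ⊆ G.edgeFinset ∧ EvenSet z ∧ e ∈ z)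
    (e : Sym2 V) (he : e ∈ G.edgeFinset) : X.cmp (geA (X.pe e)) ≠ X.cmp (geB (X.pe e)) := by
  obtain ⟨z, hz, hev, hez⟩ := hb e he
  obtain ⟨ind, hconst, hind⟩ := X.gen_ind z hz hev
  intro hcon
  have h1 := (hind e he).2 hez
  rw [hconst _ _ hcon] at h1
  have key : ∀ x : ZMod 2, x + x ≠ 1 := by decide
  exact key _ h1

end fin

end Claimed.Agent.R103
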