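import Claimed.Agent.R103.Defs

/-!
# Row 103: coboundaries are even

`bd_cob`: the four cells around the grid vertex `(x,y)` are (x,y), (x-1,y), (x,y-1), (x-1,y-1); each of them is a side of exactly
two of the four edges at `(x,y)`, so every indicator occurs twice in `bd (cob Φ) (x,y)`; in `ZMod 2` the sum is 0
(unfold everything, `split_ifs`/`simp`, finish with `decide`-style or `ring_nf` + `CharTwo.add_self_eq_zero`).
-/

set_option autoImplicit false

namespace Claimed.Agent.R103

open Classical in
/-- mod 2 coboundary of a set of cells: the grid edges with exactly one side in `Φ` -/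
noncomputable def cob (Φ : Set GV) : GE → ZMod 2 :=
  fun e => (if geA e ∈ Φ then 1 else 0) + (if geB e ∈ Φ then 1 else 0)

theorem bd_cob (Φ : Set GV) (g : GV) : bd (cob Φ) g = 0 := by
  classical
  obtain ⟨x, y⟩ := g
  have key : ∀ a b c d : ZMod 2, (a + b) + (c + d) + (d + b) + (c + a) = 0 := by decide
  exact key (if (x, y - 1) ∈ Φ then 1 else 0) (if (x, y) ∈ Φ then 1 else 0)
    (if (x - 1, y - 1) ∈ Φ then 1 else 0) (if (x - 1, y) ∈ Φ then 1 else 0)

end Claimed.Agent.R103
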