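import Claimed.Agent.R103.Defs

/-!
# Row 103: an even chain meets every cut evenly

`cut_even`: 0 = ∑ g ∈ C, bd c g = ∑ e ∈ E1, c e + ∑ e ∈ E2, c e, where E1 = {e | geSrc e ∈ C} (image of `Bool × C` under
`(β,g) ↦ (β,g.1,g.2)`) and E2 = {e | geDst e ∈ C} (image under `(true,g) ↦ (true,g.1-1,g.2)`, `(false,g) ↦ (false,g.1,g.2-1)`).
Edges in both E1 and E2 cancel (char 2), so the sum of `c e` over the symmetric difference is 0; `c e ∈ {0,1}`; the edges of the symmetric
difference with `c e = 1` are exactly `X`; hence `(X.card : ZMod 2) = 0`, i.e. `Even X.card` (`ZMod.natCast_eq_zero_iff_even`).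
-/

set_option autoImplicit false

namespace Claimed.Agent.R103

theorem gridCut_mem1 (C : Finset GV) (e : GE) :
    e ∈ C.image (fun g : GV => ((true, g.1, g.2) : GE)) ↔ e.1 = true ∧ geSrc e ∈ C := by
  obtain ⟨b, x, y⟩ := e
  simp only [Finset.mem_image, geSrc]
  constructor
  · rintro ⟨⟨a1, a2⟩, h, heq⟩
    simp only [Prod.mk.injEq] at heq
    obtain ⟨rfl, rfl, rfl⟩ := heq
    exact ⟨rfl, h⟩
  · rintro ⟨rfl, h⟩
    exact ⟨(x, y), h, rfl⟩

theorem gridCut_mem3 (C : Finset GV) (e : GE) :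
    e ∈ C.image (fun g : GV => ((false, g.1, g.2) : GE)) ↔ e.1 = false ∧ geSrc e ∈ C := by
  obtain ⟨b, x, y⟩ := e
  simp only [Finset.mem_image, geSrc]
  constructor
  · rintro ⟨⟨a1, a2⟩, h, heq⟩
    simp only [Prod.mk.injEq] at heq
    obtain ⟨rfl, rfl, rfl⟩ := heq
    exact ⟨rfl, h⟩
  · rintro ⟨rfl, h⟩
    exact ⟨(x, y), h, rfl⟩

theorem gridCut_mem2 (C : Finset GV) (e : GE) :
    e ∈ C.image (fun g : GV => ((true, g.1 - 1, g.2) : GE)) ↔ e.1 = true ∧ geDst e ∈ C := by
  obtain ⟨b, x, y⟩ := e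
  simp only [Finset.mem_image, geDst]
  constructor
  · rintro ⟨⟨a1, a2⟩, h, heq⟩
    simp only [Prod.mk.injEq] at heq
    obtain ⟨rfl, rfl, rfl⟩ := heq
    refine ⟨rfl, ?_⟩
    simpa using h
  · rintro ⟨rfl, h⟩
    refine ⟨(x + 1, y), by simpa using h, ?_⟩
    simp

theorem gridCut_mem4 (C : Finset GV) (e : GE) :
    e ∈ C.image (fun g : GV => ((false, g.1, g.2 - 1) : GE)) ↔ e.1 = false ∧ geDst e ∈ C := by
  obtain ⟨b, x, y⟩ := e
  simp only [Finset.mem_image, geDst]
  constructor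
  · rintro ⟨⟨a1, a2⟩, h, heq⟩
    simp only [Prod.mk.injEq] at heq
    obtain ⟨rfl, rfl, rfl⟩ := heq
    refine ⟨rfl, ?_⟩
    simpa using h
  · rintro ⟨rfl, h⟩
    refine ⟨(x, y + 1), by simpa using h, ?_⟩
    simp

/-- a sum over `C` through an injective map is a conditional sum over any larger edge set -/
theorem gridCut_sum (c : GE → ZMod 2) (C : Finset GV) (E : Finset GE) (i : GV → GE)
    (hi : Function.Injective i) (p : GE → Prop) [DecidablePred p]
    (hp : ∀ e, e ∈ C.image i ↔ p e) (hE : C.image i ⊆ E) :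
    ∑ g ∈ C, c (i g) = ∑ e ∈ E, if p e then c e else 0 := by
  classical
  rw [← Finset.sum_filter]
  have : E.filter p = C.image i := by
    ext e
    rw [Finset.mem_filter, hp]
    constructor
    · exact fun h => h.2
    · exact fun h => ⟨hE ((hp e).2 h), h⟩
  rw [this, Finset.sum_image (fun a _ b _ h => hi h)]

theorem gridCut_zmod2 (a : ZMod 2) : a = 0 ∨ a = 1 := by
  revert a
  decide

theorem cut_even (c : GE → ZMod 2) (hbd : ∀ g, bd c g = 0) (C : Finset GV) (X : Finset GE)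
    (hX : ∀ e, e ∈ X ↔ (c e ≠ 0 ∧ ¬ (geSrc e ∈ C ↔ geDst e ∈ C))) : Even X.card := by
  classical
  set E : Finset GE := C.image (fun g : GV => ((true, g.1, g.2) : GE))
    ∪ C.image (fun g : GV => ((true, g.1 - 1, g.2) : GE))
    ∪ C.image (fun g : GV => ((false, g.1, g.2) : GE))
    ∪ C.image (fun g : GV => ((false, g.1, g.2 - 1) : GE)) with hE
  have s1 := gridCut_sum c C E (fun g : GV => ((true, g.1, g.2) : GE))
    (by
      rintro ⟨a1, a2⟩ ⟨b1, b2⟩ h
      simp only [Prod.mk.injEq] at h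
      obtain ⟨-, h1, h2⟩ := h
      rw [h1, h2]) _ (gridCut_mem1 C)
    (by
      intro e he
      simp only [hE, Finset.mem_union]
      tauto)
  have s2 := gridCut_sum c C E (fun g : GV => ((true, g.1 - 1, g.2) : GE))
    (by
      rintro ⟨a1, a2⟩ ⟨b1, b2⟩ h
      simp only [Prod.mk.injEq] at h
      obtain ⟨-, h1, h2⟩ := h
      have : a1 = b1 := by omega
      rw [this, h2]) _ (gridCut_mem2 C)
    (by
      intro e he
      simp only [hE, Finset.mem_union]
      tauto)
  have s3 := gridCut_sum c C E (fun g : GV => ((false, g.1, g.2) : GE))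
    (by
      rintro ⟨a1, a2⟩ ⟨b1, b2⟩ h
      simp only [Prod.mk.injEq] at h
      obtain ⟨-, h1, h2⟩ := h
      rw [h1, h2]) _ (gridCut_mem3 C)
    (by
      intro e he
      simp only [hE, Finset.mem_union]
      tauto)
  have s4 := gridCut_sum c C E (fun g : GV => ((false, g.1, g.2 - 1) : GE))
    (by
      rintro ⟨a1, a2⟩ ⟨b1, b2⟩ h
      simp only [Prod.mk.injEq] at h
      obtain ⟨-, h1, h2⟩ := h
      have : a2 = b2 := by omega
      rw [h1, this]) _ (gridCut_mem4 C)
    (by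
      intro e he
      simp only [hE, Finset.mem_union]
      tauto)
  have h0 : ∑ g ∈ C, bd c g = 0 := Finset.sum_eq_zero fun g _ => hbd g
  have h1 : ∑ g ∈ C, bd c g = ∑ e ∈ E, if e ∈ X then (1 : ZMod 2) else 0 := by
    unfold bd
    rw [Finset.sum_add_distrib, Finset.sum_add_distrib, Finset.sum_add_distrib, s1, s2, s3, s4,
      ← Finset.sum_add_distrib, ← Finset.sum_add_distrib, ← Finset.sum_add_distrib]
    refine Finset.sum_congr rfl fun e _ => ?_
    have h2 : (1 : ZMod 2) + 1 = 0 := by decide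
    by_cases hs : geSrc e ∈ C <;> by_cases hd : geDst e ∈ C <;>
      rcases gridCut_zmod2 (c e) with hc | hc <;>
      rcases Bool.eq_false_or_eq_true e.1 with hb | hb <;>
      simp [hX, hs, hd, hc, hb, h2]
  have hXE : X ⊆ E := by
    intro e he
    obtain ⟨-, h⟩ := (hX e).1 he
    have h3 : geSrc e ∈ C ∨ geDst e ∈ C := by tauto
    simp only [hE, Finset.mem_union, gridCut_mem1, gridCut_mem2, gridCut_mem3, gridCut_mem4]
    rcases Bool.eq_false_or_eq_true e.1 with hb | hb <;> rcases h3 with h3 | h3 <;> simp [hb, h3]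
  rw [h0, ← Finset.sum_filter, Finset.sum_const, nsmul_eq_mul, mul_one] at h1
  have h4 : E.filter (fun e => e ∈ X) = X := by
    ext e
    rw [Finset.mem_filter]
    exact ⟨fun h => h.2, fun h => ⟨hXE h, h⟩⟩
  rw [h4] at h1
  exact (ZMod.natCast_eq_zero_iff_even).1 h1.symm

end Claimed.Agent.R103
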