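import Claimed.Agent.R103.FacesA
import Claimed.Agent.R103.GridCob
import Claimed.Agent.R103.GridCut

/-!
# Row 103: the boundary of a face is an even edge set of `G`

`faceSet_even`: fix `φ`, `v`.  Φ := {c | X.cmp c = φ}, D := cob Φ, `bd D = 0` (`bd_cob`).  `D e ≠ 0` iff exactly one side of `e` is in Φ; then `e` is a wall
  (`cmp_eq_of_not_wall`).  C := the finite set `X.C v` (finite by `X.bound`: subset of `Finset.Icc (-M) M ×ˢ Finset.Icc (-M) M`; use `Set.Finite.toFinset`).
  A wall inside a territory `C u` does not cross `C` (`terr_unique`: both ends in `C v` if `u = v`, none otherwise); the private edge of `xy` has its ends in `C x`, `C y`, so it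
  crosses `C` iff `v ∈ {x,y}`.  So the set `X'` of `cut_even` (for `c := D`) is the image of `{w | s(v,w) ∈ X.faceSet φ}` under the map `w ↦ X.pe s(v,w)`, which is injective on
  neighbours of `v` (`pe_inj`, `Sym2.congr_right`), whence `zdeg (X.faceSet φ) v = X'.card` (`Finset.card_image_of_injOn`) is even.
-/

set_option autoImplicit false
set_option linter.unusedSectionVars false

namespace Claimed.Agent.R103

universe u
variable {V : Type u} {G : SimpleGraph V} [Fintype V] [DecidableEq V] [DecidableRel G.Adj]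

theorem facesB_cob_ne_zero (Φ : Set GV) (e : GE) :
    cob Φ e ≠ 0 ↔ ¬ (geA e ∈ Φ ↔ geB e ∈ Φ) := by
  classical
  show (if geA e ∈ Φ then (1 : ZMod 2) else 0) + (if geB e ∈ Φ then 1 else 0) ≠ 0 ↔ _
  by_cases h1 : geA e ∈ Φ <;> by_cases h2 : geB e ∈ Φ
  · simp only [h1, h2, if_true, iff_self, not_true_eq_false, iff_false, not_not]
    decide
  · simp [h1, h2]
  · simp [h1, h2]
  · simp [h1, h2]

theorem GM.facesB_mem_faceSet (X : GM G) (φ : X.cellG.ConnectedComponent) (e : Sym2 V) :
    e ∈ X.faceSet φ ↔ e ∈ G.edgeFinset ∧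
      ¬ (X.cmp (geA (X.pe e)) = φ ↔ X.cmp (geB (X.pe e)) = φ) := by
  classical
  exact Finset.mem_filter

theorem GM.facesB_terr_finite (X : GM G) (v : V) : (X.C v).Finite := by
  refine Set.Finite.subset ((Set.finite_Icc (-X.M) X.M).prod (Set.finite_Icc (-X.M) X.M)) ?_
  intro g hg
  obtain ⟨h1, h2⟩ := X.bound v g hg
  exact ⟨⟨(abs_le.1 h1).1, (abs_le.1 h1).2⟩, ⟨(abs_le.1 h2).1, (abs_le.1 h2).2⟩⟩

/-- the private edge of `vw` crosses the territory of `v` -/
theorem GM.facesB_pe_cross (X : GM G) {v w : V} (h : G.Adj v w) :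
    ¬ (geSrc (X.pe s(v, w)) ∈ X.C v ↔ geDst (X.pe s(v, w)) ∈ X.C v) := by
  obtain ⟨p, hp, q, hq, hj⟩ := X.join v w h
  intro hiff
  rcases hj with ⟨h1, h2⟩ | ⟨h1, h2⟩
  · have : geDst (X.pe s(v, w)) ∈ X.C v := hiff.1 (h1 ▸ hp)
    rw [h2] at this
    exact h.ne (X.terr_unique this hq)
  · have : geSrc (X.pe s(v, w)) ∈ X.C v := hiff.2 (h2 ▸ hp)
    rw [h1] at this
    exact h.ne (X.terr_unique this hq)

/-- a wall crossing the territory of `v` is the private edge of an edge at `v` -/
theorem GM.facesB_wall_cross (X : GM G) {v : V} {e : GE} (hw : X.wall e)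
    (hc : ¬ (geSrc e ∈ X.C v ↔ geDst e ∈ X.C v)) : ∃ w, G.Adj v w ∧ e = X.pe s(v, w) := by
  rcases hw with ⟨u, h1, h2⟩ | ⟨x, y, hxy, rfl⟩
  · exfalso
    apply hc
    constructor
    · intro h
      have := X.terr_unique h1 h
      subst this
      exact h2
    · intro h
      have := X.terr_unique h2 h
      subst this
      exact h1
  · obtain ⟨p, hp, q, hq, hj⟩ := X.join x y hxy
    have hor : v = x ∨ v = y := by
      by_contra hno
      rw [not_or] at hno
      apply hc
      rcases hj with ⟨h1, h2⟩ | ⟨h1, h2⟩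
      · rw [h1, h2]
        exact ⟨fun h => absurd (X.terr_unique h hp) hno.1, fun h => absurd (X.terr_unique h hq) hno.2⟩
      · rw [h1, h2]
        exact ⟨fun h => absurd (X.terr_unique h hq) hno.2, fun h => absurd (X.terr_unique h hp) hno.1⟩
    rcases hor with rfl | rfl
    · exact ⟨y, hxy, rfl⟩
    · exact ⟨x, hxy.symm, by rw [Sym2.eq_swap]⟩

theorem GM.faceSet_even (X : GM G) (φ : X.cellG.ConnectedComponent) : EvenSet (X.faceSet φ) := by
  intro v
  show Even (Finset.card (Finset.univ.filter (fun w => s(v, w) ∈ X.faceSet φ)))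
  set S : Finset V := Finset.univ.filter (fun w => s(v, w) ∈ X.faceSet φ) with hS
  have hSmem : ∀ w, w ∈ S ↔ G.Adj v w ∧
      ¬ (X.cmp (geA (X.pe s(v, w))) = φ ↔ X.cmp (geB (X.pe s(v, w))) = φ) := by
    intro w
    rw [hS, Finset.mem_filter, X.facesB_mem_faceSet, SimpleGraph.mem_edgeFinset,
      SimpleGraph.mem_edgeSet]
    simp
  have hinj : Set.InjOn (fun w => X.pe s(v, w)) (S : Set V) := by
    intro w hw w' hw' he
    have h1 := ((hSmem w).1 hw).1
    have h2 := ((hSmem w').1 hw').1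
    exact Sym2.congr_right.1 (X.pe_inj h1 h2 he)
  rw [← Finset.card_image_of_injOn hinj]
  refine cut_even (cob {c | X.cmp c = φ}) (bd_cob _) (X.facesB_terr_finite v).toFinset _ ?_
  intro e
  rw [facesB_cob_ne_zero, Set.Finite.mem_toFinset, Set.Finite.mem_toFinset, Finset.mem_image]
  constructor
  · rintro ⟨w, hw, rfl⟩
    obtain ⟨hadj, hne⟩ := (hSmem w).1 hw
    exact ⟨hne, X.facesB_pe_cross hadj⟩
  · rintro ⟨hne, hc⟩
    have hwall : X.wall e := by
      by_contra hnw
      apply hne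
      have := X.cmp_eq_of_not_wall e hnw
      show X.cmp (geA e) = φ ↔ X.cmp (geB e) = φ
      rw [this]
    obtain ⟨w, hadj, rfl⟩ := X.facesB_wall_cross hwall hc
    exact ⟨w, (hSmem w).2 ⟨hadj, hne⟩, rfl⟩

end Claimed.Agent.R103
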