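import Claimed.Agent.R103.Defs

/-!
# Row 103: `MacLanePlanar` from a family indexed by an arbitrary finite type

`macLane_of_family`: let `σ := Fintype.equivFin ι`, `n := Fintype.card ι`, `face' := face ∘ σ.symm`.  Cardinalities of filters are transported with
`Finset.card_bij`/`Finset.card_map`/`Finset.card_equiv`; for the last clause take `I' := I.map σ.toEmbedding`.
-/

set_option autoImplicit false

namespace Claimed.Agent.R103

universe u
variable {V : Type u} {G : SimpleGraph V} [Fintype V] [DecidableEq V] [DecidableRel G.Adj]

theorem macLane_of_family {ι : Type} [Fintype ι] [DecidableEq ι] (face : ι → Finset (Sym2 V))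
    (h1 : ∀ i, face i ⊆ G.edgeFinset) (h2 : ∀ i, EvenSet (face i))
    (h3 : ∀ e ∈ G.edgeFinset, (Finset.univ.filter (fun i => e ∈ face i)).card = 2)
    (h4 : ∀ z : Finset (Sym2 V), z ⊆ G.edgeFinset → EvenSet z →
      ∃ I : Finset ι, ∀ e ∈ G.edgeFinset, (e ∈ z ↔ Odd (I.filter (fun i => e ∈ face i)).card)) :
    MacLanePlanar G := by
  classical
  refine ⟨Fintype.card ι, fun k => face ((Fintype.equivFin ι).symm k), fun i => h1 _,
    fun i => h2 _, ?_, ?_⟩
  · intro e he
    rw [← h3 e he]
    apply Finset.card_bij (fun k _ => (Fintype.equivFin ι).symm k)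
    · intro k hk
      simpa using hk
    · intro a _ b _ hab
      exact (Fintype.equivFin ι).symm.injective hab
    · intro i hi
      exact ⟨Fintype.equivFin ι i, by simpa using hi, by simp⟩
  · intro z hz hzE
    obtain ⟨I, hI⟩ := h4 z hz hzE
    refine ⟨I.map (Fintype.equivFin ι).toEmbedding, fun e he => ?_⟩
    rw [hI e he]
    have hc : ((I.map (Fintype.equivFin ι).toEmbedding).filter
        (fun k => e ∈ face ((Fintype.equivFin ι).symm k))).card
        = (I.filter (fun i => e ∈ face i)).card := by
      rw [Finset.filter_map, Finset.card_map]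
      congr 1
      ext i
      simp
    rw [hc]

end Claimed.Agent.R103
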