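import Claimed.Agent.R103.FacesB
import Claimed.Agent.R103.FacesC

/-!
# Row 103: `GridMinor G → MacLanePlanar G`

`macLane_of_gridMinor`: let `X : GM G`.  (classical)  `faces : Finset X.cellG.ConnectedComponent` := the components `X.cmp (geA (X.pe e))`, `X.cmp (geB (X.pe e))`, `e ∈ G.edgeFinset`
  (`Finset.biUnion`), ι := `{φ // φ ∈ faces}`, `face i := X.faceSet i.1`.  Apply `macLane_of_family`.
  h1: `Finset.filter_subset`.   h2: `faceSet_even`.
  h3: for `e ∈ G.edgeFinset` the faces containing `e` are exactly the two sides `X.cmp (geA (X.pe e)) ≠ X.cmp (geB (X.pe e))` (`sides_ne`): the filter is a pair, `Finset.card_pair`.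
  h4: for even `z` take `ind` from `gen_ind`; it is constant on components, so `val φ := ind (any cell of φ)` is well defined (`Quot.out`/`ConnectedComponent.lift`/`exists_rep`);
      I := {i | val i.1 = 1}.  `I.filter (e ∈ face ·)` is the set of those of the two sides of `e` on which `ind = 1`; its cardinality is odd iff
      `ind (geA (pe e)) + ind (geB (pe e)) = 1` (values in `ZMod 2`: case split, `fin_cases`/`decide`), iff `e ∈ z`.
-/

set_option autoImplicit false

namespace Claimed.Agent.R103

universe u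
variable {V : Type u} {G : SimpleGraph V} [Fintype V] [DecidableEq V] [DecidableRel G.Adj]

theorem macLane_of_gridMinor (h : GridMinor G)
    (hb : ∀ e ∈ G.edgeFinset, ∃ z, z ⊆ G.edgeFinset ∧ EvenSet z ∧ e ∈ z) : MacLanePlanar G := by
  classical
  obtain ⟨X⟩ := h
  let faces : Finset X.cellG.ConnectedComponent :=
    G.edgeFinset.biUnion (fun e => {X.cmp (geA (X.pe e)), X.cmp (geB (X.pe e))})
  have hA : ∀ e ∈ G.edgeFinset, X.cmp (geA (X.pe e)) ∈ faces := fun e he =>
    Finset.mem_biUnion.2 ⟨e, he, by simp⟩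
  have hB : ∀ e ∈ G.edgeFinset, X.cmp (geB (X.pe e)) ∈ faces := fun e he =>
    Finset.mem_biUnion.2 ⟨e, he, by simp⟩
  -- the faces containing `e` are exactly its two sides
  have hpair : ∀ (e : Sym2 V) (he : e ∈ G.edgeFinset),
      Finset.univ.filter (fun i : {φ // φ ∈ faces} => e ∈ X.faceSet i.1)
        = {⟨_, hA e he⟩, ⟨_, hB e he⟩} := by
    intro e he
    have hne := X.sides_ne hb e he
    ext i
    rw [Finset.mem_filter, X.facesB_mem_faceSet, Finset.mem_insert, Finset.mem_singleton,
      Subtype.ext_iff, Subtype.ext_iff]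
    constructor
    · rintro ⟨_, _, hn⟩
      by_cases h1 : X.cmp (geA (X.pe e)) = i.1
      · exact Or.inl h1.symm
      · by_cases h2 : X.cmp (geB (X.pe e)) = i.1
        · exact Or.inr h2.symm
        · exact absurd ⟨fun h => absurd h h1, fun h => absurd h h2⟩ hn
    · rintro (h1 | h1)
      · refine ⟨Finset.mem_univ _, he, fun hiff => ?_⟩
        exact hne (h1.symm.trans (hiff.1 h1.symm).symm)
      · refine ⟨Finset.mem_univ _, he, fun hiff => ?_⟩
        exact hne ((hiff.2 h1.symm).trans h1)
  have hpne : ∀ (e : Sym2 V) (he : e ∈ G.edgeFinset),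
      (⟨_, hA e he⟩ : {φ // φ ∈ faces}) ≠ ⟨_, hB e he⟩ := by
    intro e he hcon
    exact X.sides_ne hb e he (Subtype.ext_iff.1 hcon)
  refine macLane_of_family (ι := {φ // φ ∈ faces}) (fun i => X.faceSet i.1) ?_ ?_ ?_ ?_
  · intro i
    exact Finset.filter_subset _ _
  · intro i
    exact X.faceSet_even i.1
  · intro e he
    rw [hpair e he, Finset.card_pair (hpne e he)]
  · intro z hz hev
    obtain ⟨ind, hconst, hind⟩ := X.gen_ind z hz hev
    have hval : ∀ c, ind (Quot.out (X.cmp c)) = ind c := by
      intro c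
      apply hconst
      exact Quot.out_eq (X.cmp c)
    refine ⟨Finset.univ.filter (fun i => ind (Quot.out i.1) = 1), fun e he => ?_⟩
    rw [Finset.filter_comm, hpair e he, ← hind e he, Finset.filter_insert,
      Finset.filter_singleton]
    simp only [hval]
    have key : ∀ x y : ZMod 2, (x = 0 ∨ x = 1) ∧ (y = 0 ∨ y = 1) := by decide
    have h01 : (0 : ZMod 2) ≠ 1 := by decide
    have h11 : (1 : ZMod 2) + 1 ≠ 1 := by decide
    obtain ⟨hx, hy⟩ := key (ind (geA (X.pe e))) (ind (geB (X.pe e)))
    rcases hx with hx | hx <;> rcases hy with hy | hy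
    · simp [hx, hy]
    · simp [hx, hy]
    · simp [hx, hy]
    · rw [hx, hy, if_pos rfl, if_pos rfl, Finset.card_pair (hpne e he)]
      simp [h11]

end Claimed.Agent.R103
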