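import Claimed.Agent.R103.Defs

/-!
# Row 103: basic facts on `GReach`, and the chain of a grid walk

`bd_single`: the chain of one grid edge has boundary = its two ends (case split on `e.1`, on `g = geSrc e`, `g = geDst e`).
`chain_of_reach`: induction on the `ReflTransGen` (`Relation.ReflTransGen.head_induction_on` or plain `induction`):
 empty walk: c = 0, pt a + pt a = 0 in `ZMod 2`;  step `b → b'` along `e` (both ends in `S`): c' = c + Pi.single e 1.
 For the support statement one needs that all vertices of the walk lie in `S`: `a ∈ S` by hypothesis, the others by definition of `GReach`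
 (prove `GReach S a b → a ∈ S → b ∈ S` first).
-/

set_option autoImplicit false

namespace Claimed.Agent.R103

theorem GReach.refl' (S : Set GV) (a : GV) : GReach S a a := Relation.ReflTransGen.refl

theorem GReach.trans' {S : Set GV} {a b c : GV} (h₁ : GReach S a b) (h₂ : GReach S b c) : GReach S a c :=
  Relation.ReflTransGen.trans h₁ h₂

theorem GReach.mono' {S T : Set GV} (h : S ⊆ T) {a b : GV} (h₁ : GReach S a b) : GReach T a b := by
  induction h₁ with
  | refl => exact Relation.ReflTransGen.refl
  | tail _ hpq ih => exact Relation.ReflTransGen.tail ih ⟨h hpq.1, hpq.2⟩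

theorem GReach.mem' {S : Set GV} {a b : GV} (h : GReach S a b) (ha : a ∈ S) : b ∈ S := by
  induction h with
  | refl => exact ha
  | tail _ h _ => exact h.1

/-- reversal (both ends in `S`) -/
theorem GReach.symm' {S : Set GV} {a b : GV} (h : GReach S a b) (ha : a ∈ S) : GReach S b a := by
  induction h with
  | refl => exact Relation.ReflTransGen.refl
  | @tail b c hab hbc ih =>
    obtain ⟨_, e, he⟩ := hbc
    exact Relation.ReflTransGen.head ⟨GReach.mem' hab ha, e, he.symm⟩ ih

theorem bd_single (e : GE) (g : GV) :
    bd (Pi.single e (1 : ZMod 2)) g = pt (geSrc e) g + pt (geDst e) g := by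
  obtain ⟨t, x, y⟩ := e
  obtain ⟨g1, g2⟩ := g
  cases t
  · simp [bd, pt, geSrc, geDst, Pi.single_apply, sub_eq_iff_eq_add]
  · simp [bd, pt, geSrc, geDst, Pi.single_apply, sub_eq_iff_eq_add]

theorem bd_add (c d : GE → ZMod 2) (g : GV) : bd (c + d) g = bd c g + bd d g := by
  simp only [bd, Pi.add_apply]; ring

theorem chain_of_reach (S : Set GV) (a b : GV) (ha : a ∈ S) (h : GReach S a b) :
    ∃ c : GE → ZMod 2, (∀ e, c e ≠ 0 → geSrc e ∈ S ∧ geDst e ∈ S) ∧
      ∀ g, bd c g = pt a g + pt b g := by
  induction h with
  | refl =>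
    refine ⟨0, fun e he => absurd rfl he, fun g => ?_⟩
    rw [CharTwo.add_self_eq_zero]
    simp [bd]
  | @tail b b' hab hbb' ih =>
    obtain ⟨c, hc1, hc2⟩ := ih
    obtain ⟨hb', e, he⟩ := hbb'
    have hb : b ∈ S := GReach.mem' hab ha
    refine ⟨c + Pi.single e 1, fun e' he' => ?_, fun g => ?_⟩
    · by_cases hee : e' = e
      · subst hee
        rcases he with ⟨h1, h2⟩ | ⟨h1, h2⟩
        · rw [h1, h2]; exact ⟨hb, hb'⟩
        · rw [h1, h2]; exact ⟨hb', hb⟩
      · apply hc1
        intro h0
        apply he'
        simp [h0, hee]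
    · rw [bd_add, hc2, bd_single]
      have h2 : pt b g + pt b g = 0 := CharTwo.add_self_eq_zero _
      rcases he with ⟨h1, h3⟩ | ⟨h1, h3⟩
      · rw [h1, h3]
        calc pt a g + pt b g + (pt b g + pt b' g) = pt a g + (pt b g + pt b g) + pt b' g := by ring
          _ = pt a g + pt b' g := by rw [h2, add_zero]
      · rw [h1, h3]
        calc pt a g + pt b g + (pt b' g + pt b g) = pt a g + (pt b g + pt b g) + pt b' g := by ring
          _ = pt a g + pt b' g := by rw [h2, add_zero]

end Claimed.Agent.R103
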