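import Claimed.Agent.R103.Defs

/-!
# Row 103: every even chain of the grid is a coboundary (the discrete "the plane is simply connected")

PAPER PROOF of `exists_ind`.  Put  ind (x,y) := ∑ i ∈ Finset.Icc (-M) M, (if i ≤ x then c (false, i, y) else 0)
(the number mod 2 of vertical edges of `c` in the row `y` weakly to the left of the cell `(x,y)`).
(V) vertical edge `(false,x,y)`: geA = (x-1,y), geB = (x,y);  ind (x,y) - ind (x-1,y) = ∑ i, if i = x then c (false,i,y) else 0,
    which is `c (false,x,y)` if `x ∈ Icc (-M) M` and `0 = c (false,x,y)` otherwise (support hypothesis).  In `ZMod 2`, `-` is `+`.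
(H) horizontal edge `(true,x,y)`: geA = (x,y-1), geB = (x,y).  Put a x := ind (x,y) + ind (x,y-1) + c (true,x,y).
    By (V):  a x + a (x-1) = c (false,x,y) + c (false,x,y-1) + c (true,x,y) + c (true,x-1,y) = bd c (x,y) = 0, so a x = a (x-1).
    For x < -M all three terms of `a x` vanish.  Upward induction on `x` (`Int.le_induction`) gives a x = 0 for all x.
-/

set_option autoImplicit false

namespace Claimed.Agent.R103

theorem exists_ind (M : ℤ) (c : GE → ZMod 2)
    (hsupp : ∀ e : GE, c e ≠ 0 → |e.2.1| ≤ M ∧ |e.2.2| ≤ M)
    (hbd : ∀ g, bd c g = 0) :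
    ∃ ind : GV → ZMod 2, ∀ e : GE, c e = ind (geA e) + ind (geB e) := by
  classical
  set ind : GV → ZMod 2 := fun g =>
    ∑ i ∈ Finset.Icc (-M) M, (if i ≤ g.1 then c (false, i, g.2) else 0) with hind
  -- (V)
  have hV : ∀ x y : ℤ, ind (x, y) + ind (x - 1, y) = c (false, x, y) := by
    intro x y
    simp only [hind]
    rw [← Finset.sum_add_distrib]
    have h1 : ∀ i ∈ Finset.Icc (-M) M,
        ((if i ≤ x then c (false, i, y) else 0) + (if i ≤ x - 1 then c (false, i, y) else 0)) =
          if i = x then c (false, i, y) else 0 := by
      intro i _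
      by_cases h2 : i ≤ x - 1
      · have h3 : i ≤ x := by omega
        have h4 : i ≠ x := by omega
        rw [if_pos h2, if_pos h3, if_neg h4]
        exact CharTwo.add_self_eq_zero _
      · by_cases h3 : i ≤ x
        · have h4 : i = x := by omega
          rw [if_neg h2, if_pos h3, if_pos h4, add_zero]
        · have h4 : i ≠ x := by omega
          rw [if_neg h2, if_neg h3, if_neg h4, add_zero]
    rw [Finset.sum_congr rfl h1, Finset.sum_ite_eq']
    split_ifs with hx
    · rfl
    · by_contra hne
      have := (hsupp (false, x, y) (fun h => hne h.symm)).1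
      simp only at this
      rw [abs_le] at this
      exact hx (Finset.mem_Icc.2 this)
  -- vanishing far to the left
  have hleft : ∀ x y : ℤ, x < -M → ind (x, y) = 0 := by
    intro x y hx
    simp only [hind]
    apply Finset.sum_eq_zero
    intro i hi
    have := (Finset.mem_Icc.1 hi).1
    rw [if_neg (by omega)]
  -- (H)
  have hH : ∀ y x : ℤ, -M - 1 ≤ x → ind (x, y) + ind (x, y - 1) + c (true, x, y) = 0 := by
    intro y x hx
    induction x, hx using Int.leInduction with
    | base =>
      rw [hleft _ _ (by omega), hleft _ _ (by omega)]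
      by_contra hne
      have := (hsupp (true, -M - 1, y) (by simpa using hne)).1
      simp only at this
      rw [abs_le] at this
      omega
    | succ n _ ih =>
      have h1 := hV (n + 1) y
      have h2 := hV (n + 1) (y - 1)
      have h3 := hbd (n + 1, y)
      unfold bd at h3
      simp only [add_sub_cancel_right] at h1 h2 h3
      rw [← h1, ← h2] at h3
      generalize ind (n + 1, y) = u1 at *
      generalize ind (n + 1, y - 1) = u2 at *
      generalize ind (n, y) = u3 at *
      generalize ind (n, y - 1) = u4 at *
      generalize c (true, n + 1, y) = u5 at *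
      generalize c (true, n, y) = u6 at *
      revert ih h3
      clear h1 h2
      revert u1 u2 u3 u4 u5 u6
      decide
  have hH' : ∀ x y : ℤ, ind (x, y) + ind (x, y - 1) + c (true, x, y) = 0 := by
    intro x y
    by_cases hx : -M - 1 ≤ x
    · exact hH y x hx
    · rw [hleft _ _ (by omega), hleft _ _ (by omega)]
      by_contra hne
      have := (hsupp (true, x, y) (by simpa using hne)).1
      simp only at this
      rw [abs_le] at this
      omega
  refine ⟨ind, ?_⟩
  rintro ⟨b, x, y⟩
  cases b
  · have h1 := hV x y
    simp only [geA, geB, Bool.false_eq_true, if_false]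
    rw [← h1, add_comm]
  · have h1 := hH' x y
    simp only [geA, geB, if_true]
    generalize ind (x, y) = u1 at *
    generalize ind (x, y - 1) = u2 at *
    generalize c (true, x, y) = u3 at *
    revert h1
    revert u1 u2 u3
    decide

end Claimed.Agent.R103
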