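import Claimed.Agent.R103.GridChain

/-!
# Row 103: the long chain of an edge of `G` in a grid minor model

`X : GM G` is a grid minor model.  For an edge `vw` of `G` let `p ∈ C v`, `q ∈ C w` be the ends of the private edge `pe s(v,w)` (`X.join`).
`pe_not_inside`: the two ends lie in `C v` and `C w`, `v ≠ w` (`h.ne`), and a grid vertex lies in at most one territory (`terr_unique`).
`pe_inj`: the unordered pair of territories of the two ends of the private edge determines `s(v,w)` (`Sym2.eq_iff`, `terr_unique`, unfold `GJoin`).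
`bd_sum`: `Finset.induction_on` (classical) with `bd_add`, or unfold `bd`, `Finset.sum_apply`, `Finset.sum_add_distrib`.
`edge_chain`:  q := Pi.single (pe s(v,w)) 1 + K_v + K_w, where `K_v` is a chain inside `C v` from `b v` to `p` (`chain_of_reach`, `X.conn`, `X.b_mem`)
 and `K_w` a chain inside `C w` from `b w` to `q`.  Boundary: (pt p + pt q) + (pt (b v) + pt p) + (pt (b w) + pt q) = pt (b v) + pt (b w) (char 2; `bd_single`, `bd_add`).
 `K_v`, `K_w` are supported on edges inside a territory, hence are walls and vanish on all private edges (`pe_not_inside`);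
 `Pi.single` is 1 at `pe s(v,w)` and 0 at the other private edges (`pe_inj`).
`edge_chain'`: `Sym2.ind` / `induction e` and `edge_chain` (`SimpleGraph.mem_edgeSet`, `Sym2.lift_mk`).
-/

set_option autoImplicit false

namespace Claimed.Agent.R103

universe u
variable {V : Type u} {G : SimpleGraph V}

/-- a grid vertex lies in at most one territory -/
theorem GM.terr_unique (X : GM G) {v w : V} {g : GV} (hv : g ∈ X.C v) (hw : g ∈ X.C w) : v = w := by
  by_contra h
  exact (Set.disjoint_left.mp (X.disj v w h)) hv hw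

/-- a private edge is not inside a territory -/
theorem GM.pe_not_inside (X : GM G) {v w : V} (h : G.Adj v w) (x : V) :
    ¬ (geSrc (X.pe s(v, w)) ∈ X.C x ∧ geDst (X.pe s(v, w)) ∈ X.C x) := by
  rintro ⟨h1, h2⟩
  obtain ⟨p, hp, q, hq, hj⟩ := X.join v w h
  rcases hj with ⟨e1, e2⟩ | ⟨e1, e2⟩
  · rw [e1] at h1; rw [e2] at h2
    exact h.ne ((X.terr_unique hp h1).trans (X.terr_unique hq h2).symm)
  · rw [e1] at h1; rw [e2] at h2
    exact h.ne ((X.terr_unique hp h2).trans (X.terr_unique hq h1).symm)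

/-- different edges have different private edges -/
theorem GM.pe_inj (X : GM G) {v w x y : V} (h : G.Adj v w) (k : G.Adj x y)
    (he : X.pe s(v, w) = X.pe s(x, y)) : s(v, w) = s(x, y) := by
  obtain ⟨p, hp, q, hq, hj⟩ := X.join v w h
  obtain ⟨p', hp', q', hq', hj'⟩ := X.join x y k
  rw [← he] at hj'
  rw [Sym2.eq_iff]
  rcases hj with ⟨e1, e2⟩ | ⟨e1, e2⟩ <;> rcases hj' with ⟨f1, f2⟩ | ⟨f1, f2⟩
  · left
    have a1 : p = p' := e1.symm.trans f1
    have a2 : q = q' := e2.symm.trans f2
    subst a1; subst a2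
    exact ⟨X.terr_unique hp hp', X.terr_unique hq hq'⟩
  · right
    have a1 : p = q' := e1.symm.trans f1
    have a2 : q = p' := e2.symm.trans f2
    subst a1; subst a2
    exact ⟨X.terr_unique hp hq', X.terr_unique hq hp'⟩
  · right
    have a1 : q = p' := e1.symm.trans f1
    have a2 : p = q' := e2.symm.trans f2
    subst a1; subst a2
    exact ⟨X.terr_unique hp hq', X.terr_unique hq hp'⟩
  · left
    have a1 : q = q' := e1.symm.trans f1
    have a2 : p = p' := e2.symm.trans f2
    subst a1; subst a2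
    exact ⟨X.terr_unique hp hp', X.terr_unique hq hq'⟩

theorem bd_sum {ι : Type*} (s : Finset ι) (f : ι → GE → ZMod 2) (g : GV) :
    bd (∑ i ∈ s, f i) g = ∑ i ∈ s, bd (f i) g := by
  simp only [bd, Finset.sum_apply, Finset.sum_add_distrib]

/-- the long chain of an edge of `G`: from `b v` through `C v`, the private edge, and `C w` to `b w` -/
theorem GM.edge_chain (X : GM G) {v w : V} (h : G.Adj v w) :
    ∃ q : GE → ZMod 2, (∀ g, bd q g = pt (X.b v) g + pt (X.b w) g) ∧ (∀ e, q e ≠ 0 → X.wall e) ∧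
      q (X.pe s(v, w)) = 1 ∧ ∀ x y, G.Adj x y → s(x, y) ≠ s(v, w) → q (X.pe s(x, y)) = 0 := by
  obtain ⟨p, hp, q, hq, hj⟩ := X.join v w h
  obtain ⟨Kv, hKv1, hKv2⟩ := chain_of_reach (X.C v) (X.b v) p (X.b_mem v) (X.conn v p hp)
  obtain ⟨Kw, hKw1, hKw2⟩ := chain_of_reach (X.C w) (X.b w) q (X.b_mem w) (X.conn w q hq)
  have hKv0 : ∀ x y, G.Adj x y → Kv (X.pe s(x, y)) = 0 := by
    intro x y k
    by_contra h0
    exact X.pe_not_inside k v (hKv1 _ h0)
  have hKw0 : ∀ x y, G.Adj x y → Kw (X.pe s(x, y)) = 0 := by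
    intro x y k
    by_contra h0
    exact X.pe_not_inside k w (hKw1 _ h0)
  refine ⟨Pi.single (X.pe s(v, w)) 1 + Kv + Kw, fun g => ?_, fun e he => ?_, ?_, fun x y k hne => ?_⟩
  · rw [bd_add, bd_add, bd_single, hKv2, hKw2]
    have hpq : pt (geSrc (X.pe s(v, w))) g + pt (geDst (X.pe s(v, w))) g = pt p g + pt q g := by
      rcases hj with ⟨e1, e2⟩ | ⟨e1, e2⟩
      · rw [e1, e2]
      · rw [e1, e2, add_comm]
    rw [hpq]
    have h2 : pt p g + pt p g = 0 := CharTwo.add_self_eq_zero _
    have h3 : pt q g + pt q g = 0 := CharTwo.add_self_eq_zero _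
    calc pt p g + pt q g + (pt (X.b v) g + pt p g) + (pt (X.b w) g + pt q g)
        = pt (X.b v) g + pt (X.b w) g + (pt p g + pt p g) + (pt q g + pt q g) := by ring
      _ = pt (X.b v) g + pt (X.b w) g := by rw [h2, h3, add_zero, add_zero]
  · by_cases h1 : e = X.pe s(v, w)
    · exact Or.inr ⟨v, w, h, h1⟩
    · by_cases h2 : Kv e = 0
      · by_cases h3 : Kw e = 0
        · exfalso
          apply he
          simp [h1, h2, h3]
        · exact Or.inl ⟨w, hKw1 e h3⟩
      · exact Or.inl ⟨v, hKv1 e h2⟩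
  · simp [hKv0 v w h, hKw0 v w h]
  · have hne' : X.pe s(x, y) ≠ X.pe s(v, w) := fun he => hne (X.pe_inj k h he)
    simp [hKv0 x y k, hKw0 x y k, hne']

/-- the same, indexed by `Sym2 V` -/
theorem GM.edge_chain' (X : GM G) (e : Sym2 V) (he : e ∈ G.edgeSet) :
    ∃ q : GE → ZMod 2,
      (∀ g, bd q g = Sym2.lift ⟨fun v w => pt (X.b v) g + pt (X.b w) g, fun _ _ => add_comm _ _⟩ e) ∧
      (∀ e', q e' ≠ 0 → X.wall e') ∧
      q (X.pe e) = 1 ∧ ∀ f ∈ G.edgeSet, f ≠ e → q (X.pe f) = 0 := by
  induction e using Sym2.ind with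
  | _ v w =>
    rw [SimpleGraph.mem_edgeSet] at he
    obtain ⟨q, h1, h2, h3, h4⟩ := X.edge_chain he
    refine ⟨q, fun g => ?_, h2, h3, fun f hf hne => ?_⟩
    · rw [h1, Sym2.lift_mk]
    · induction f using Sym2.ind with
      | _ x y =>
        rw [SimpleGraph.mem_edgeSet] at hf
        exact h4 x y hf hne

end Claimed.Agent.R103
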