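import Claimed.Agent.R103.GridChain

/-!
# Row 103: a product of two integer intervals is connected in the grid

`greach_prod`: `I J : Set ℤ` order connected (`Set.OrdConnected`, `Set.OrdConnected.out`).  From `a` to `(b.1, a.2)` by horizontal unit steps (induction on `(b.1 - a.1).natAbs`, or
  `Int.le_induction` in both directions; all intermediate first coordinates lie between `a.1` and `b.1`, hence in `I`), then to `b` by vertical unit steps.
  A horizontal step between `(x,y)` and `(x+1,y)` uses the grid edge `(true,x,y)`; a vertical step between `(x,y)` and `(x,y+1)` uses `(false,x,y)` (`GJoin` allows both directions).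
-/

set_option autoImplicit false

namespace Claimed.Agent.R103

theorem ra_h_up (S : Set GV) (y x : ℤ) (n : ℕ) (h : ∀ t, x ≤ t → t ≤ x + n → (t, y) ∈ S) :
    GReach S (x, y) (x + n, y) := by
  induction n with
  | zero =>
    rw [Nat.cast_zero, add_zero]
    exact Relation.ReflTransGen.refl
  | succ k ih =>
    refine Relation.ReflTransGen.tail (ih fun t h1 h2 => h t h1 (by push_cast; omega))
      ⟨h _ (by push_cast; omega) (by push_cast; omega), (true, x + k, y), Or.inl ⟨rfl, ?_⟩⟩
    simp only [geDst, if_true]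
    push_cast
    rw [add_assoc]

theorem ra_h_down (S : Set GV) (y x : ℤ) (n : ℕ) (h : ∀ t, x ≤ t → t ≤ x + n → (t, y) ∈ S) :
    GReach S (x + n, y) (x, y) := by
  induction n with
  | zero =>
    rw [Nat.cast_zero, add_zero]
    exact Relation.ReflTransGen.refl
  | succ k ih =>
    refine Relation.ReflTransGen.head
      ⟨h _ (by push_cast; omega) (by push_cast; omega), (true, x + k, y), Or.inr ⟨rfl, ?_⟩⟩
      (ih fun t h1 h2 => h t h1 (by push_cast; omega))
    simp only [geDst, if_true]
    push_cast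
    rw [add_assoc]

theorem ra_v_up (S : Set GV) (x y : ℤ) (n : ℕ) (h : ∀ t, y ≤ t → t ≤ y + n → (x, t) ∈ S) :
    GReach S (x, y) (x, y + n) := by
  induction n with
  | zero =>
    rw [Nat.cast_zero, add_zero]
    exact Relation.ReflTransGen.refl
  | succ k ih =>
    refine Relation.ReflTransGen.tail (ih fun t h1 h2 => h t h1 (by push_cast; omega))
      ⟨h _ (by push_cast; omega) (by push_cast; omega), (false, x, y + k), Or.inl ⟨rfl, ?_⟩⟩
    simp only [geDst, Bool.false_eq_true, if_false]
    push_cast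
    rw [add_assoc]

theorem ra_v_down (S : Set GV) (x y : ℤ) (n : ℕ) (h : ∀ t, y ≤ t → t ≤ y + n → (x, t) ∈ S) :
    GReach S (x, y + n) (x, y) := by
  induction n with
  | zero =>
    rw [Nat.cast_zero, add_zero]
    exact Relation.ReflTransGen.refl
  | succ k ih =>
    refine Relation.ReflTransGen.head
      ⟨h _ (by push_cast; omega) (by push_cast; omega), (false, x, y + k), Or.inr ⟨rfl, ?_⟩⟩
      (ih fun t h1 h2 => h t h1 (by push_cast; omega))
    simp only [geDst, Bool.false_eq_true, if_false]
    push_cast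
    rw [add_assoc]

theorem ra_h (S : Set GV) (y x x' : ℤ) (h : ∀ t, min x x' ≤ t → t ≤ max x x' → (t, y) ∈ S) :
    GReach S (x, y) (x', y) := by
  rcases le_total x x' with hx | hx
  · obtain ⟨n, rfl⟩ := Int.le.dest hx
    exact ra_h_up S y x n fun t h1 h2 => h t (by omega) (by omega)
  · obtain ⟨n, rfl⟩ := Int.le.dest hx
    exact ra_h_down S y x' n fun t h1 h2 => h t (by omega) (by omega)

theorem ra_v (S : Set GV) (x y y' : ℤ) (h : ∀ t, min y y' ≤ t → t ≤ max y y' → (x, t) ∈ S) :
    GReach S (x, y) (x, y') := by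
  rcases le_total y y' with hy | hy
  · obtain ⟨n, rfl⟩ := Int.le.dest hy
    exact ra_v_up S x y n fun t h1 h2 => h t (by omega) (by omega)
  · obtain ⟨n, rfl⟩ := Int.le.dest hy
    exact ra_v_down S x y' n fun t h1 h2 => h t (by omega) (by omega)

theorem greach_prod (I J : Set ℤ) [I.OrdConnected] [J.OrdConnected] (a b : GV)
    (ha : a.1 ∈ I ∧ a.2 ∈ J) (hb : b.1 ∈ I ∧ b.2 ∈ J) :
    GReach {g : GV | g.1 ∈ I ∧ g.2 ∈ J} a b := by
  obtain ⟨a1, a2⟩ := a
  obtain ⟨b1, b2⟩ := b
  simp only at ha hb
  have h1 : GReach {g : GV | g.1 ∈ I ∧ g.2 ∈ J} (a1, a2) (b1, a2) := by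
    refine ra_h _ a2 a1 b1 fun t ht1 ht2 => ⟨?_, ha.2⟩
    rcases le_total a1 b1 with hx | hx
    · exact Set.OrdConnected.out inferInstance ha.1 hb.1 ⟨by simpa [hx] using ht1, by simpa [hx] using ht2⟩
    · exact Set.OrdConnected.out inferInstance hb.1 ha.1 ⟨by simpa [hx] using ht1, by simpa [hx] using ht2⟩
  have h2 : GReach {g : GV | g.1 ∈ I ∧ g.2 ∈ J} (b1, a2) (b1, b2) := by
    refine ra_v _ b1 a2 b2 fun t ht1 ht2 => ⟨hb.1, ?_⟩
    rcases le_total a2 b2 with hx | hx
    · exact Set.OrdConnected.out inferInstance ha.2 hb.2 ⟨by simpa [hx] using ht1, by simpa [hx] using ht2⟩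
    · exact Set.OrdConnected.out inferInstance hb.2 ha.2 ⟨by simpa [hx] using ht1, by simpa [hx] using ht2⟩
  exact h1.trans h2

end Claimed.Agent.R103
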