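import Claimed.Agent.R103.RectA

/-!
# Row 103: grid points in a box are connected; rounding

The metric on `ℝ × ℝ` is the sup metric: `dist (sc ε g) P ≤ ρ ↔ |ε * g.1 - P.1| ≤ ρ ∧ |ε * g.2 - P.2| ≤ ρ` (`Prod.dist_eq`, `max_le_iff`, `Real.dist_eq`).
`greach_box`: the set is `{g | g.1 ∈ I ∧ g.2 ∈ J}` with `I = {i : ℤ | |ε * i - P.1| ≤ ρ}`, which is order connected since `i ↦ ε * i` is monotone; apply `greach_prod`.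
`exists_round`: `g = (⌊P.1 / ε⌋, ⌊P.2 / ε⌋)`; `0 ≤ x - ε * ⌊x / ε⌋ < ε` (`Int.floor_le`, `Int.lt_floor_add_one`).
`exists_bound`: `M := ⌈R / ε⌉`; `|ε * g.1| ≤ R` gives `|(g.1 : ℝ)| ≤ R / ε ≤ M`, then cast back to `ℤ`.
-/

set_option autoImplicit false

namespace Claimed.Agent.R103

theorem rb_dist_iff (ε : ℝ) (g : GV) (P : ℝ × ℝ) (ρ : ℝ) :
    dist (sc ε g) P ≤ ρ ↔ |ε * (g.1 : ℝ) - P.1| ≤ ρ ∧ |ε * (g.2 : ℝ) - P.2| ≤ ρ := by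
  rw [Prod.dist_eq, max_le_iff, Real.dist_eq, Real.dist_eq]
  rfl

theorem rb_ordConnected (ε : ℝ) (hε : 0 < ε) (c ρ : ℝ) :
    Set.OrdConnected {i : ℤ | |ε * (i : ℝ) - c| ≤ ρ} := by
  refine ⟨fun x hx y hy z hz => ?_⟩
  simp only [Set.mem_setOf_eq, abs_le] at hx hy ⊢
  have h1 : (x : ℝ) ≤ z := by exact_mod_cast hz.1
  have h2 : (z : ℝ) ≤ y := by exact_mod_cast hz.2
  have h3 : ε * (x : ℝ) ≤ ε * z := mul_le_mul_of_nonneg_left h1 hε.le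
  have h4 : ε * (z : ℝ) ≤ ε * y := mul_le_mul_of_nonneg_left h2 hε.le
  constructor <;> linarith [hx.1, hy.2]

theorem greach_box (ε : ℝ) (hε : 0 < ε) (P : ℝ × ℝ) (ρ : ℝ) (a b : GV)
    (ha : dist (sc ε a) P ≤ ρ) (hb : dist (sc ε b) P ≤ ρ) :
    GReach {g : GV | dist (sc ε g) P ≤ ρ} a b := by
  have hset : {g : GV | dist (sc ε g) P ≤ ρ} =
      {g : GV | g.1 ∈ {i : ℤ | |ε * (i : ℝ) - P.1| ≤ ρ} ∧
        g.2 ∈ {i : ℤ | |ε * (i : ℝ) - P.2| ≤ ρ}} := by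
    ext g
    simp only [Set.mem_setOf_eq]
    exact rb_dist_iff ε g P ρ
  rw [hset]
  haveI := rb_ordConnected ε hε P.1 ρ
  haveI := rb_ordConnected ε hε P.2 ρ
  exact greach_prod _ _ a b ((rb_dist_iff ε a P ρ).1 ha) ((rb_dist_iff ε b P ρ).1 hb)

theorem rb_floor (ε : ℝ) (hε : 0 < ε) (x : ℝ) : |ε * ((⌊x / ε⌋ : ℤ) : ℝ) - x| ≤ ε := by
  have h1 : ((⌊x / ε⌋ : ℤ) : ℝ) ≤ x / ε := Int.floor_le _
  have h2 : x / ε < ((⌊x / ε⌋ : ℤ) : ℝ) + 1 := Int.lt_floor_add_one _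
  have h3 : ε * ((⌊x / ε⌋ : ℤ) : ℝ) ≤ x := by
    have := mul_le_mul_of_nonneg_left h1 hε.le
    rwa [mul_div_cancel₀ _ hε.ne'] at this
  have h4 : x < ε * (((⌊x / ε⌋ : ℤ) : ℝ) + 1) := by
    have := mul_lt_mul_of_pos_left h2 hε
    rwa [mul_div_cancel₀ _ hε.ne'] at this
  rw [abs_le]
  constructor <;> nlinarith

theorem exists_round (ε : ℝ) (hε : 0 < ε) (P : ℝ × ℝ) : ∃ g : GV, dist (sc ε g) P ≤ ε := by
  refine ⟨(⌊P.1 / ε⌋, ⌊P.2 / ε⌋), ?_⟩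
  rw [rb_dist_iff]
  exact ⟨rb_floor ε hε P.1, rb_floor ε hε P.2⟩

theorem rb_bound (ε : ℝ) (hε : 0 < ε) (R : ℝ) (i : ℤ) (h : |ε * (i : ℝ) - 0| ≤ R) :
    |i| ≤ ⌈R / ε⌉ := by
  have h1 : |(i : ℝ)| ≤ R / ε := by
    rw [le_div_iff₀ hε]
    rw [sub_zero, abs_mul, abs_of_pos hε] at h
    linarith
  have h2 : |(i : ℝ)| ≤ ((⌈R / ε⌉ : ℤ) : ℝ) := h1.trans (Int.le_ceil _)
  have h3 : ((|i| : ℤ) : ℝ) ≤ ((⌈R / ε⌉ : ℤ) : ℝ) := by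
    rw [Int.cast_abs]
    exact h2
  exact_mod_cast h3

/-- grid points whose scaled image is bounded are bounded -/
theorem exists_bound (ε : ℝ) (hε : 0 < ε) (R : ℝ) :
    ∃ M : ℤ, ∀ g : GV, dist (sc ε g) (0, 0) ≤ R → |g.1| ≤ M ∧ |g.2| ≤ M := by
  refine ⟨⌈R / ε⌉, fun g hg => ?_⟩
  rw [rb_dist_iff] at hg
  exact ⟨rb_bound ε hε R g.1 hg.1, rb_bound ε hε R g.2 hg.2⟩

end Claimed.Agent.R103
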