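import Claimed.Agent.R103.Defs

/-!
# Row 103: mod 2 sums of faces

`zsum G face X` = the edges of `G` lying in an odd number of the faces `face i`, `i ∈ X`.
`zsum_even`: in `ZMod 2`:  `(zdeg (zsum ..) v : ZMod 2) = ∑ w, [s(v,w) ∈ zsum]  = ∑ w, ∑ i ∈ X, [s(v,w) ∈ face i] = ∑ i ∈ X, (zdeg (face i) v : ZMod 2) = 0`.
 Here `[s(v,w) ∈ zsum] = ((X.filter (s(v,w) ∈ face ·)).card : ZMod 2)`: if `s(v,w) ∈ G.edgeFinset` this is the definition (`Odd n ↔ (n : ZMod 2) = 1`, `Even n ↔ (n : ZMod 2) = 0`);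
 otherwise no face contains `s(v,w)` (`hsub`) and both sides are `0`.   Use `Finset.card_filter`/`Finset.sum_boole`, `Finset.sum_comm`, `ZMod.natCast_eq_zero_iff_even` (or `ZMod.eq_zero_iff_even`).
`zdeg_le_degree`: `{w | s(v,w) ∈ z} ⊆ G.neighborFinset v`.
-/

set_option autoImplicit false

namespace Claimed.Agent.R103

universe u
variable {V : Type u} [Fintype V] [DecidableEq V]

/-- mod 2 sum of the faces in `X` -/
def zsum (G : SimpleGraph V) [DecidableRel G.Adj] {n : ℕ} (face : Fin n → Finset (Sym2 V))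
    (X : Finset (Fin n)) : Finset (Sym2 V) :=
  G.edgeFinset.filter (fun e => Odd (X.filter (fun i => e ∈ face i)).card)

theorem zsum_even (G : SimpleGraph V) [DecidableRel G.Adj] {n : ℕ} (face : Fin n → Finset (Sym2 V))
    (hsub : ∀ i, face i ⊆ G.edgeFinset) (hev : ∀ i, EvenSet (face i)) (X : Finset (Fin n)) :
    EvenSet (zsum G face X) := by
  intro v
  rw [← ZMod.natCast_eq_zero_iff_even]
  -- the indicator of `zsum` in `ZMod 2`
  have hind : ∀ w : V, ((if s(v, w) ∈ zsum G face X then 1 else 0 : ℕ) : ZMod 2)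
      = ((X.filter (fun i => s(v, w) ∈ face i)).card : ZMod 2) := by
    intro w
    by_cases hE : s(v, w) ∈ G.edgeFinset
    · by_cases hodd : Odd (X.filter (fun i => s(v, w) ∈ face i)).card
      · have hmem : s(v, w) ∈ zsum G face X := Finset.mem_filter.2 ⟨hE, hodd⟩
        rw [if_pos hmem, Nat.cast_one]
        exact ((ZMod.natCast_eq_one_iff_odd).2 hodd).symm
      · have hmem : s(v, w) ∉ zsum G face X := fun h => hodd (Finset.mem_filter.1 h).2
        rw [if_neg hmem, Nat.cast_zero]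
        exact ((ZMod.natCast_eq_zero_iff_even).2 (Nat.not_odd_iff_even.1 hodd)).symm
    · have hmem : s(v, w) ∉ zsum G face X := fun h => hE (Finset.mem_filter.1 h).1
      have hempty : X.filter (fun i => s(v, w) ∈ face i) = ∅ := by
        refine Finset.filter_eq_empty_iff.2 fun i _ hi => hE (hsub i hi)
      rw [if_neg hmem, hempty, Finset.card_empty]
  have h1 : ((zdeg (zsum G face X) v : ℕ) : ZMod 2)
      = ∑ w : V, ((X.filter (fun i => s(v, w) ∈ face i)).card : ZMod 2) := by
    rw [zdeg, Finset.card_filter, Nat.cast_sum]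
    exact Finset.sum_congr rfl fun w _ => hind w
  have h2 : ∀ w : V, ((X.filter (fun i => s(v, w) ∈ face i)).card : ZMod 2)
      = ∑ i ∈ X, ((if s(v, w) ∈ face i then 1 else 0 : ℕ) : ZMod 2) := by
    intro w
    rw [Finset.card_filter, Nat.cast_sum]
  rw [h1, Finset.sum_congr rfl fun w _ => h2 w, Finset.sum_comm]
  refine Finset.sum_eq_zero fun i _ => ?_
  have h3 : ∑ w : V, ((if s(v, w) ∈ face i then 1 else 0 : ℕ) : ZMod 2) = ((zdeg (face i) v : ℕ) : ZMod 2) := by
    rw [zdeg, Finset.card_filter, Nat.cast_sum]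
  rw [h3]
  exact (ZMod.natCast_eq_zero_iff_even).2 (hev i v)

theorem zdeg_le_degree (G : SimpleGraph V) [DecidableRel G.Adj] (z : Finset (Sym2 V))
    (hz : z ⊆ G.edgeFinset) (v : V) : zdeg z v ≤ G.degree v := by
  rw [zdeg, ← SimpleGraph.card_neighborFinset_eq_degree]
  refine Finset.card_le_card fun w hw => ?_
  have h := hz (Finset.mem_filter.1 hw).2
  rw [SimpleGraph.mem_edgeFinset, SimpleGraph.mem_edgeSet] at h
  exact (SimpleGraph.mem_neighborFinset G v w).2 h

end Claimed.Agent.R103
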