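import Claimed.Agent.R103.SteinA
import Claimed.Agent.R103.HamA

/-!
# Row 103: Stein's lemma, algebraic form (connectivity part)

Setting: `face : Fin n → Finset (Sym2 V)` a MacLane face system of `G` (`hsub`, `htwo`, `hgen`), `X` a set of faces, `z := zsum G face X`.
`FConn face X i j`: `j` can be reached from `i` by steps `a → b` with `b ∈ X` and `face a ∩ face b ≠ ∅` (dual adjacency).

`faces_of_edge`: an edge `e ∈ face i ∩ face j`, `i ≠ j`, lies in no third face (`htwo`, `Finset.card_eq_two`); so for any `I`, `(I.filter (e ∈ face ·)).card` is `[i ∈ I] + [j ∈ I]`.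
`closed_of_gen`: let `z1 ⊆ z` and `I` with `e ∈ z1 ↔ Odd (I.filter (e ∈ face ·)).card` for all edges `e`.  If `i, j ∈ X` (or `i, j ∉ X`) share an edge `e` then `i ∈ I ↔ j ∈ I`.
   [if `i = j` trivial; otherwise `e` lies in exactly the faces `i, j`, both in `X` (none in `X`), so `e ∉ z`, so `e ∉ z1`, so `[i ∈ I] + [j ∈ I]` is even.]
   By induction along `FConn`: `i ∈ I ↔ j ∈ I` for all `i, j ∈ X`, and for all `i, j ∉ X`.
`all_or_none`: consequently, for `e, e' ∈ z`:  `e ∈ z1 ↔ e' ∈ z1`.   [`e` lies in exactly one face `i ∈ X` and one face `j ∉ X`; same for `e'`: `i'`, `j'`; `i ∈ I ↔ i' ∈ I`, `j ∈ I ↔ j' ∈ I`.]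
-/

set_option autoImplicit false

namespace Claimed.Agent.R103

universe u
variable {V : Type u} [Fintype V] [DecidableEq V]

/-- connectivity of a set of faces in the dual graph -/
def FConn {n : ℕ} (face : Fin n → Finset (Sym2 V)) (X : Finset (Fin n)) : Fin n → Fin n → Prop :=
  Relation.ReflTransGen (fun i j => j ∈ X ∧ (face i ∩ face j).Nonempty)

variable (G : SimpleGraph V) [DecidableRel G.Adj] {n : ℕ} (face : Fin n → Finset (Sym2 V))

theorem faces_of_edge
    (htwo : ∀ e ∈ G.edgeFinset, (Finset.univ.filter (fun i => e ∈ face i)).card = 2)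
    (e : Sym2 V) (he : e ∈ G.edgeFinset) (i j : Fin n) (hij : i ≠ j) (hi : e ∈ face i) (hj : e ∈ face j)
    (I : Finset (Fin n)) :
    (I.filter (fun k => e ∈ face k)).card = (if i ∈ I then 1 else 0) + (if j ∈ I then 1 else 0) := by
  have hS : ({i, j} : Finset (Fin n)) = Finset.univ.filter (fun k => e ∈ face k) := by
    apply Finset.eq_of_subset_of_card_le
    · intro k hk
      rcases Finset.mem_insert.1 hk with rfl | hk
      · exact Finset.mem_filter.2 ⟨Finset.mem_univ _, hi⟩
      · rw [Finset.mem_singleton] at hk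
        subst hk
        exact Finset.mem_filter.2 ⟨Finset.mem_univ _, hj⟩
    · rw [htwo e he, Finset.card_pair hij]
  have hk : ∀ k, e ∈ face k ↔ (k = i ∨ k = j) := by
    intro k
    have h1 : k ∈ ({i, j} : Finset (Fin n)) ↔ k ∈ Finset.univ.filter (fun k => e ∈ face k) := by
      rw [hS]
    rw [Finset.mem_insert, Finset.mem_singleton, Finset.mem_filter] at h1
    constructor
    · intro h
      exact h1.2 ⟨Finset.mem_univ _, h⟩
    · intro h
      exact (h1.1 h).2
  have hF : I.filter (fun k => e ∈ face k) = I.filter (fun k => k = i ∨ k = j) :=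
    Finset.filter_congr (fun k _ => hk k)
  rw [hF, Finset.filter_or, Finset.card_union_of_disjoint
    (Finset.disjoint_filter.2 (fun k _ h1 h2 => hij (h1.symm.trans h2))),
    Finset.filter_eq', Finset.filter_eq']
  split_ifs <;> simp

/-- an edge of `zsum G face X` lies in a face of `X` and in a face outside `X` -/
theorem steinB_exists_faces
    (htwo : ∀ e ∈ G.edgeFinset, (Finset.univ.filter (fun i => e ∈ face i)).card = 2)
    (X : Finset (Fin n)) (e : Sym2 V) (he : e ∈ zsum G face X) :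
    e ∈ G.edgeFinset ∧ ∃ i j, i ∈ X ∧ j ∉ X ∧ e ∈ face i ∧ e ∈ face j := by
  obtain ⟨heG, hodd⟩ := Finset.mem_filter.1 he
  refine ⟨heG, ?_⟩
  obtain ⟨i, j, hij, hS⟩ := Finset.card_eq_two.1 (htwo e heG)
  have hi : e ∈ face i := by
    have : i ∈ Finset.univ.filter (fun i => e ∈ face i) := by
      rw [hS]
      simp
    exact (Finset.mem_filter.1 this).2
  have hj : e ∈ face j := by
    have : j ∈ Finset.univ.filter (fun i => e ∈ face i) := by
      rw [hS]
      simp
    exact (Finset.mem_filter.1 this).2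
  rw [faces_of_edge G face htwo e heG i j hij hi hj X] at hodd
  by_cases h1 : i ∈ X <;> by_cases h2 : j ∈ X
  · simp [h1, h2] at hodd
    exact absurd hodd (by decide)
  · exact ⟨i, j, h1, h2, hi, hj⟩
  · exact ⟨j, i, h2, h1, hj, hi⟩
  · simp [h1, h2] at hodd

/-- induction along `FConn` -/
theorem steinB_conn_closed (W I : Finset (Fin n))
    (hW : ∀ a b, a ∈ W → b ∈ W → (face a ∩ face b).Nonempty → (a ∈ I ↔ b ∈ I))
    (i j : Fin n) (hi : i ∈ W) (h : FConn face W i j) : j ∈ W ∧ (i ∈ I ↔ j ∈ I) := by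
  induction h with
  | refl => exact ⟨hi, Iff.rfl⟩
  | tail _ hbc ih => exact ⟨hbc.1, ih.2.trans (hW _ _ ih.1 hbc.1 hbc.2)⟩

theorem all_or_none
    (hsub : ∀ i, face i ⊆ G.edgeFinset)
    (htwo : ∀ e ∈ G.edgeFinset, (Finset.univ.filter (fun i => e ∈ face i)).card = 2)
    (X : Finset (Fin n))
    (hX : ∀ i ∈ X, ∀ j ∈ X, FConn face X i j) (hY : ∀ i ∈ Xᶜ, ∀ j ∈ Xᶜ, FConn face Xᶜ i j)
    (z1 : Finset (Sym2 V)) (hz1 : z1 ⊆ zsum G face X) (I : Finset (Fin n))
    (hI : ∀ e ∈ G.edgeFinset, (e ∈ z1 ↔ Odd (I.filter (fun i => e ∈ face i)).card))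
    (e e' : Sym2 V) (he : e ∈ zsum G face X) (he' : e' ∈ zsum G face X) : e ∈ z1 ↔ e' ∈ z1 := by
  -- faces on the same side sharing an edge are both in `I` or both outside
  have hstep : ∀ a b, (a ∈ X ↔ b ∈ X) → (face a ∩ face b).Nonempty → (a ∈ I ↔ b ∈ I) := by
    intro a b hab hne
    by_cases hEq : a = b
    · rw [hEq]
    obtain ⟨f, hf⟩ := hne
    obtain ⟨hfa, hfb⟩ := Finset.mem_inter.1 hf
    have hfG : f ∈ G.edgeFinset := hsub a hfa
    have hfz : f ∉ zsum G face X := by
      intro hfz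
      have hodd := (Finset.mem_filter.1 hfz).2
      rw [faces_of_edge G face htwo f hfG a b hEq hfa hfb X] at hodd
      by_cases h1 : a ∈ X
      · have h2 : b ∈ X := hab.1 h1
        simp [h1, h2] at hodd
        exact absurd hodd (by decide)
      · have h2 : b ∉ X := fun h => h1 (hab.2 h)
        simp [h1, h2] at hodd
    have hfz1 : f ∉ z1 := fun h => hfz (hz1 h)
    rw [hI f hfG, faces_of_edge G face htwo f hfG a b hEq hfa hfb I] at hfz1
    by_cases h1 : a ∈ I <;> by_cases h2 : b ∈ I <;> simp [h1, h2] at hfz1 ⊢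
  have hXI : ∀ a ∈ X, ∀ b ∈ X, (a ∈ I ↔ b ∈ I) := by
    intro a ha b hb
    exact (steinB_conn_closed face X I
      (fun a b ha hb hne => hstep a b (iff_of_true ha hb) hne) a b ha (hX a ha b hb)).2
  have hYI : ∀ a ∉ X, ∀ b ∉ X, (a ∈ I ↔ b ∈ I) := by
    intro a ha b hb
    exact (steinB_conn_closed face Xᶜ I
      (fun a b ha hb hne => hstep a b
        (iff_of_false (Finset.mem_compl.1 ha) (Finset.mem_compl.1 hb)) hne) a b
      (Finset.mem_compl.2 ha) (hY a (Finset.mem_compl.2 ha) b (Finset.mem_compl.2 hb))).2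
  obtain ⟨heG, i, j, hi, hj, hei, hej⟩ := steinB_exists_faces G face htwo X e he
  obtain ⟨heG', i', j', hi', hj', hei', hej'⟩ := steinB_exists_faces G face htwo X e' he'
  have hij : i ≠ j := fun h => hj (h ▸ hi)
  have hij' : i' ≠ j' := fun h => hj' (h ▸ hi')
  rw [hI e heG, hI e' heG', faces_of_edge G face htwo e heG i j hij hei hej I,
    faces_of_edge G face htwo e' heG' i' j' hij' hei' hej' I]
  have h1 := hXI i hi i' hi'
  have h2 := hYI j hj j' hj'
  simp only [h1, h2]

end Claimed.Agent.R103
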