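import Claimed.Agent.R103.SteinB

/-!
# Row 103: Stein's lemma, algebraic form: the mod 2 sum of the faces of one class is connected

Setting as in SteinB: `face` a MacLane face system of `G`, `X` a set of faces, `z := zsum G face X`.
`zconn_of_partition`: fix `v0`; `K := {v | ZConn z v0 v}`; `z1 := z.filter (fun e => ∃ v ∈ e, ZConn z v0 v)`.  If one end of a `z`-edge is in `K` so is the other.
   `EvenSet z1`: for `v ∈ K`, `zdeg z1 v = zdeg z v`; for `v ∉ K`, `zdeg z1 v = 0`; `z` is even (`zsum_even`).  `hgen` gives `I`.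
   `v0` has a `z`-edge (`hv`), it is in `z1`; by `all_or_none` `z1 = z`.  Any `v` has a `z`-edge, which is in `z1`, so one of its ends, hence `v`, is in `K`.
-/

set_option autoImplicit false

namespace Claimed.Agent.R103

universe u
variable {V : Type u} [Fintype V] [DecidableEq V]
variable (G : SimpleGraph V) [DecidableRel G.Adj] {n : ℕ} (face : Fin n → Finset (Sym2 V))

omit [Fintype V] [DecidableEq V] in
/-- if some end of the `z`-edge `s(v,w)` can be reached from `a`, so can `v` -/
theorem zconn_of_mem_edge (z : Finset (Sym2 V)) (a v w : V) (he : s(v, w) ∈ z)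
    (h : ∃ u ∈ s(v, w), ZConn z a u) : ZConn z a v := by
  obtain ⟨u, hu, hc⟩ := h
  rcases Sym2.mem_iff.1 hu with rfl | rfl
  · exact hc
  · exact Relation.ReflTransGen.tail hc (by rw [Sym2.eq_swap]; exact he)

theorem zconn_of_partition
    (hsub : ∀ i, face i ⊆ G.edgeFinset) (hev : ∀ i, EvenSet (face i))
    (htwo : ∀ e ∈ G.edgeFinset, (Finset.univ.filter (fun i => e ∈ face i)).card = 2)
    (hgen : ∀ z : Finset (Sym2 V), z ⊆ G.edgeFinset → EvenSet z →
      ∃ I : Finset (Fin n), ∀ e ∈ G.edgeFinset, (e ∈ z ↔ Odd (I.filter (fun i => e ∈ face i)).card))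
    (X : Finset (Fin n))
    (hX : ∀ i ∈ X, ∀ j ∈ X, FConn face X i j) (hY : ∀ i ∈ Xᶜ, ∀ j ∈ Xᶜ, FConn face Xᶜ i j)
    (hv : ∀ v, ∃ w, s(v, w) ∈ zsum G face X) (a b : V) : ZConn (zsum G face X) a b := by
  classical
  set z := zsum G face X with hz
  have hzE : z ⊆ G.edgeFinset := Finset.filter_subset _ _
  have hzev : EvenSet z := zsum_even G face hsub hev X
  let z1 : Finset (Sym2 V) := z.filter (fun e => ∃ v ∈ e, ZConn z a v)
  have hz1 : z1 ⊆ z := Finset.filter_subset _ _
  have hmem : ∀ e, e ∈ z1 ↔ e ∈ z ∧ ∃ v ∈ e, ZConn z a v := fun e => Finset.mem_filter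
  have hev1 : EvenSet z1 := by
    intro v
    by_cases hK : ZConn z a v
    · have : zdeg z1 v = zdeg z v := by
        unfold zdeg
        congr 1
        ext w
        simp only [Finset.mem_filter, Finset.mem_univ, true_and]
        constructor
        · intro h
          exact hz1 h
        · intro h
          exact (hmem _).2 ⟨h, v, Sym2.mem_mk_left v w, hK⟩
      rw [this]
      exact hzev v
    · have : zdeg z1 v = 0 := by
        unfold zdeg
        rw [Finset.card_eq_zero, Finset.filter_eq_empty_iff]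
        intro w _ h
        obtain ⟨h1, h2⟩ := (hmem _).1 h
        exact hK (zconn_of_mem_edge z a v w h1 h2)
      rw [this]
      exact Even.zero
  obtain ⟨I, hI⟩ := hgen z1 (hz1.trans hzE) hev1
  obtain ⟨w0, hw0⟩ := hv a
  obtain ⟨w, hw⟩ := hv b
  have h0 : s(a, w0) ∈ z1 :=
    (hmem _).2 ⟨hw0, a, Sym2.mem_mk_left a w0, Relation.ReflTransGen.refl⟩
  have h1 : s(b, w) ∈ z1 :=
    (all_or_none G face hsub htwo X hX hY z1 hz1 I hI _ _ hw0 hw).1 h0
  exact zconn_of_mem_edge z a b w hw ((hmem _).1 h1).2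

end Claimed.Agent.R103
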