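import Claimed.Agent.R103.GridChain

/-!
# Row 103: two lemmas on grid walks

`reach_in_reach`: a walk from `a` inside `U` stays inside the set of vertices reachable from `a` inside `U` (induction on the `ReflTransGen`; keep `GReach U a x` as a second component).
`first_hit`: induction on the walk proves, for every `x` with `GReach (A ∪ N ∪ B') a x`: either (`x ∉ B'` and `GReach (A ∪ (N \ B')) a x`) or the conclusion holds.
   [start: `a ∈ A`, so `a ∉ B'`.  step `x → y`: if `y ∈ B'` take `(p,q) = (x,y)`, otherwise `y ∈ A ∪ (N \ B')` and the walk is prolonged.]  Apply it to `x = b'`.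
-/

set_option autoImplicit false

namespace Claimed.Agent.R103

theorem GJoin.symm' {e : GE} {p q : GV} (h : GJoin e p q) : GJoin e q p := Or.symm h

theorem reach_in_reach (U : Set GV) (a g : GV) (h : GReach U a g) :
    GReach {x | x ∈ U ∧ GReach U a x} a g := by
  have key : GReach {x | x ∈ U ∧ GReach U a x} a g ∧ GReach U a g := by
    induction h with
    | refl => exact ⟨Relation.ReflTransGen.refl, Relation.ReflTransGen.refl⟩
    | tail _ hstep ih =>
      have h2 := ih.2.tail hstep
      exact ⟨ih.1.tail ⟨⟨hstep.1, h2⟩, hstep.2⟩, h2⟩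
  exact key.1

theorem first_hit (A N B' : Set GV) (a b' : GV) (ha : a ∈ A) (hb : b' ∈ B') (hd : Disjoint A B')
    (h : GReach (A ∪ N ∪ B') a b') :
    ∃ (p q : GV) (e : GE), GReach (A ∪ (N \ B')) a p ∧ q ∈ B' ∧ GJoin e p q := by
  have key : ∀ x, GReach (A ∪ N ∪ B') a x →
      (x ∉ B' ∧ GReach (A ∪ (N \ B')) a x) ∨
        ∃ (p q : GV) (e : GE), GReach (A ∪ (N \ B')) a p ∧ q ∈ B' ∧ GJoin e p q := by
    intro x hx
    induction hx with
    | refl => exact Or.inl ⟨fun hB => Set.disjoint_left.1 hd ha hB, Relation.ReflTransGen.refl⟩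
    | @tail x y _ hstep ih =>
      rcases ih with ⟨_, hr⟩ | hc
      · obtain ⟨hy, e, he⟩ := hstep
        by_cases hyB : y ∈ B'
        · exact Or.inr ⟨x, y, e, hr, hyB, he⟩
        · refine Or.inl ⟨hyB, hr.tail ⟨?_, e, he⟩⟩
          rcases hy with (hyA | hyN) | hyB'
          · exact Or.inl hyA
          · exact Or.inr ⟨hyN, hyB⟩
          · exact absurd hyB' hyB
      · exact Or.inr hc
  rcases key b' h with ⟨hn, _⟩ | hc
  · exact absurd hb hn
  · exact hc

end Claimed.Agent.R103
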