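import Claimed.Agent.R103.TerA

/-!
# Row 103: from a raw grid model to a grid minor model

Data of `RawModel G`: `M B N b`.  For `e : Sym2 V` write `(v_e, w_e) := Quot.out e` (so `s(v_e, w_e) = e`, `Quot.out_eq`).
Territories.  For `e : Sym2 V`:  `S e := {g | g ∈ N e ∧ g ∉ B v_e ∧ g ∉ B w_e ∧ GReach (B v_e ∪ (N e \ B w_e)) (b v_e) g}`,
   `C u := B u ∪ {g | ∃ e ∈ G.edgeSet, (Quot.out e).1 = u ∧ g ∈ S e}`,   `pe e` := the grid edge given by `first_hit` for `A = B v_e`, `N = N e`, `B' = B w_e` (for `e ∈ G.edgeSet`; default otherwise).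
 * bound: clear.   * `b u ∈ B u ⊆ C u`.
 * connected: `g ∈ B u`: hypothesis + `GReach.mono'`.  `g ∈ S e`, `v_e = u`: `reach_in_reach`; a vertex of `B u ∪ (N e \ B w_e)` reachable from `b u` is in `B u` or in `S e`.
 * disjoint (`u ≠ u'`): `B u`/`B u'` by hypothesis.  `B u`/`S e'` (`v_e' = u'`): if `u ∉ e'` by the tube/box hypothesis, otherwise `u = w_e'` and `S e'` avoids `B w_e'`.
   `S e`/`S e'`: `v_e ≠ v_e'`, so `e ≠ e'` and `N e`, `N e'` are disjoint.
 * join: for `G.Adj v w`, `e = s(v,w)`, `(v_e,w_e)` is `(v,w)` or `(w,v)` (`Sym2.eq_iff`); `p` is reachable, so `p ∈ B v_e ∪ S e ⊆ C v_e` (`GReach.mem'`); `q ∈ B w_e ⊆ C w_e`; `GJoin.symm'`.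
-/

set_option autoImplicit false

namespace Claimed.Agent.R103

universe u
variable {V : Type u} {G : SimpleGraph V}

theorem gridMinor_of_rawModel (h : RawModel G) : GridMinor G := by
  classical
  obtain ⟨M, B, N, b, hB, hN, hb, hc, hBB, hNN, hNB, hj⟩ := h
  obtain ⟨ve, we, hout⟩ : ∃ ve we : Sym2 V → V, ∀ e, s(ve e, we e) = e :=
    ⟨fun e => (Quot.out e).1, fun e => (Quot.out e).2, fun e => Quot.out_eq e⟩
  have hadj : ∀ e ∈ G.edgeSet, G.Adj (ve e) (we e) := by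
    intro e he
    rw [← hout e] at he
    exact (SimpleGraph.mem_edgeSet G).1 he
  have hfh : ∀ e : Sym2 V, ∃ ge : GE, e ∈ G.edgeSet → ∃ p q : GV,
      GReach (B (ve e) ∪ (N e \ B (we e))) (b (ve e)) p ∧ q ∈ B (we e) ∧ GJoin ge p q := by
    intro e
    by_cases he : e ∈ G.edgeSet
    · have h1 := hj (ve e) (we e) (hadj e he)
      rw [hout e] at h1
      obtain ⟨p, q, ge, h2⟩ := first_hit (B (ve e)) (N e) (B (we e)) (b (ve e)) (b (we e)) (hb _) (hb _)
        (hBB _ _ (hadj e he).ne) h1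
      exact ⟨ge, fun _ => ⟨p, q, h2⟩⟩
    · exact ⟨(true, 0, 0), fun h => absurd h he⟩
  choose pe hpe using hfh
  -- a vertex reachable from `b (ve e)` lies in the territory of `ve e`
  have hUC : ∀ e ∈ G.edgeSet, ∀ x, GReach (B (ve e) ∪ (N e \ B (we e))) (b (ve e)) x →
      x ∈ B (ve e) ∪ {g | ∃ e' ∈ G.edgeSet, ve e' = ve e ∧ (g ∈ N e' ∧ g ∉ B (ve e') ∧ g ∉ B (we e') ∧
        GReach (B (ve e') ∪ (N e' \ B (we e'))) (b (ve e')) g)} := by
    intro e he x hx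
    have hxU := hx.mem' (Or.inl (hb _))
    by_cases hxB : x ∈ B (ve e)
    · exact Or.inl hxB
    · rcases hxU with hxU | hxU
      · exact absurd hxU hxB
      · exact Or.inr ⟨e, he, rfl, hxU.1, hxB, hxU.2, hx⟩
  -- a box does not meet the added part of another territory
  have hBS : ∀ (u : V) (e : Sym2 V) (g : GV), u ≠ ve e → g ∈ B u → g ∈ N e → g ∉ B (we e) → False := by
    intro u e g hu hgB hgN hgw
    by_cases hue : u ∈ e
    · rw [← hout e, Sym2.mem_iff] at hue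
      rcases hue with hue | hue
      · exact hu hue
      · rw [hue] at hgB
        exact hgw hgB
    · exact Set.disjoint_left.1 (hNB e u hue) hgN hgB
  refine ⟨⟨M, fun u => B u ∪ {g | ∃ e ∈ G.edgeSet, ve e = u ∧ (g ∈ N e ∧ g ∉ B (ve e) ∧ g ∉ B (we e) ∧
    GReach (B (ve e) ∪ (N e \ B (we e))) (b (ve e)) g)}, b, pe, ?_, ?_, ?_, ?_, ?_⟩⟩
  · rintro v g (hg | ⟨e, _, _, hg, _⟩)
    · exact hB v g hg
    · exact hN e g hg
  · intro v
    exact Or.inl (hb v)
  · rintro v g (hg | ⟨e, he, rfl, hg1, hg2, hg3, hg4⟩)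
    · exact (hc v g hg).mono' Set.subset_union_left
    · refine (reach_in_reach _ _ _ hg4).mono' ?_
      rintro x ⟨_, hx⟩
      exact hUC e he x hx
  · intro v w hvw
    rw [Set.disjoint_left]
    rintro g (hg | ⟨e, he, rfl, hg1, hg2, hg3, hg4⟩) (hg' | ⟨e', he', rfl, hg1', hg2', hg3', hg4'⟩)
    · exact Set.disjoint_left.1 (hBB v w hvw) hg hg'
    · exact hBS v e' g hvw hg hg1' hg3'
    · exact hBS w e g hvw.symm hg' hg1 hg3
    · have hee : e ≠ e' := fun h => hvw (by rw [h])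
      exact Set.disjoint_left.1 (hNN e e' hee) hg1 hg1'
  · intro v w hvw
    have he : s(v, w) ∈ G.edgeSet := (SimpleGraph.mem_edgeSet G).2 hvw
    obtain ⟨p, q, hp, hq, hjn⟩ := hpe s(v, w) he
    have hpC := hUC _ he p hp
    rcases Sym2.eq_iff.1 (hout s(v, w)) with ⟨h1, h2⟩ | ⟨h1, h2⟩
    · rw [h1] at hpC
      rw [h2] at hq
      exact ⟨p, hpC, q, Or.inl hq, hjn⟩
    · rw [h1] at hpC
      rw [h2] at hq
      exact ⟨q, Or.inl hq, p, hpC, hjn.symm'⟩

end Claimed.Agent.R103
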