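import Claimed.Agent.R103.RectB

/-!
# Row 103: the grid points near an arc are connected

PAPER PROOF of `tube_reach`.  For a point `P` put `S P := {g | dist (sc ε g) P ≤ 3 * ε}`; by `greach_box` any two members of `S P` are joined inside `S P`,
and `S (γ t) ⊆ U` by `hU`, so (L): two grid points within `3ε` of the same `γ t` are joined inside `U` (`GReach.mono'`).
Let `T := {t | ∀ g, dist (sc ε g) (γ t) ≤ ε → GReach U g0 g}`.
 * `0 ∈ T` by (L) with `t = 0`.
 * Let `t` be arbitrary.  By continuity there is a neighbourhood `O` of `t` with `dist (γ s) (γ t) < ε` for `s ∈ O`.  Claim: for `s ∈ O`, `t ∈ T ↔ s ∈ T`.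
   Pick `gt`, `gs` with `dist (sc ε gt) (γ t) ≤ ε`, `dist (sc ε gs) (γ s) ≤ ε` (`exists_round`).  Every `g` within `ε` of `γ s` is within `2ε` of `γ t`.
   If `t ∈ T`: `g0 ⇝ gt`, and `gt ⇝ g` by (L) at `t`.  If `s ∈ T`: `g0 ⇝ gs`, and `gs ⇝ g` for every `g` within `ε` of `γ t`, by (L) at `t`.
 * Hence `T` and its complement are both neighbourhoods of each of their points: `T` is clopen; `unitInterval` is connected (`IsClopen.eq_univ`), so `1 ∈ T`.
-/

set_option autoImplicit false

namespace Claimed.Agent.R103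

theorem tube_reach (ε : ℝ) (hε : 0 < ε) (γ : C(unitInterval, ℝ × ℝ)) (U : Set GV)
    (hU : ∀ (t : unitInterval) (g : GV), dist (sc ε g) (γ t) ≤ 3 * ε → g ∈ U)
    (g0 g1 : GV) (h0 : dist (sc ε g0) (γ 0) ≤ ε) (h1 : dist (sc ε g1) (γ 1) ≤ ε) :
    GReach U g0 g1 := by
  have L : ∀ (t : unitInterval) (a b : GV), dist (sc ε a) (γ t) ≤ 3 * ε →
      dist (sc ε b) (γ t) ≤ 3 * ε → GReach U a b := fun t a b ha hb =>
    (greach_box ε hε (γ t) (3 * ε) a b ha hb).mono' (fun g hg => hU t g hg)
  set T : Set unitInterval := {t | ∀ g, dist (sc ε g) (γ t) ≤ ε → GReach U g0 g} with hT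
  have hloc : ∀ t : unitInterval, ∀ᶠ s in nhds t, (s ∈ T ↔ t ∈ T) := by
    intro t
    have hO : ∀ᶠ s in nhds t, γ s ∈ Metric.ball (γ t) ε :=
      (γ.continuous.tendsto t).eventually (Metric.ball_mem_nhds (γ t) hε)
    filter_upwards [hO] with s hs
    rw [Metric.mem_ball] at hs
    constructor
    · intro hsT g hg
      obtain ⟨gs, hgs⟩ := exists_round ε hε (γ s)
      have h2 : dist (sc ε gs) (γ t) ≤ 3 * ε := by
        have := dist_triangle (sc ε gs) (γ s) (γ t)
        linarith
      exact (hsT gs hgs).trans' (L t gs g h2 (by linarith))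
    · intro htT g hg
      obtain ⟨gt, hgt⟩ := exists_round ε hε (γ t)
      have h2 : dist (sc ε g) (γ t) ≤ 3 * ε := by
        have := dist_triangle (sc ε g) (γ s) (γ t)
        linarith
      exact (htT gt hgt).trans' (L t gt g (by linarith) h2)
  have hopen : IsOpen T := by
    rw [isOpen_iff_mem_nhds]
    intro t ht
    filter_upwards [hloc t] with s hs
    exact hs.2 ht
  have hclosed : IsClosed T := by
    rw [← isOpen_compl_iff, isOpen_iff_mem_nhds]
    intro t ht
    filter_upwards [hloc t] with s hs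
    exact fun hsT => ht (hs.1 hsT)
  have h0T : (0 : unitInterval) ∈ T := fun g hg => L 0 g0 g (by linarith) (by linarith)
  have huniv : T = Set.univ := IsClopen.eq_univ ⟨hclosed, hopen⟩ ⟨0, h0T⟩
  have h1T : (1 : unitInterval) ∈ T := by
    rw [huniv]
    exact Set.mem_univ _
  exact h1T g1 h1

end Claimed.Agent.R103
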